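import Crest.Agent.N207.A.Mk

/-!
# Row 207, block B (helper8): from the Prelude's Ricci flows to `Flow` and back
-/

set_option autoImplicit false
set_option linter.style.haveILetI false
set_option linter.unusedSectionVars false

open scoped ContDiff Manifold Topology
open Set Bundle Filter
open Crest.GeometryTopology.CoordMetric Crest.GeometryTopology.ChartCurvature
  Crest.GeometryTopology.MetricFamily
open Crest.Agent.R247 Crest.Agent.R202.Tens

noncomputable section

namespace Crest.Agent.N207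

variable {n k : ℕ} {M : Type*} [TopologicalSpace M] [ChartedSpace (En n) M]
  [IsManifold 𝓘(ℝ, En n) ∞ M]

theorem famCoeff_eq (g : FormFamily 𝓘(ℝ, En n) M) (x : M) (t : ℝ) :
    famCoeff 𝓘(ℝ, En n) (ContinuousLinearEquiv.refl ℝ (En n)) M g x t = frmG (g t) x := rfl

theorem famCentre_eq (x : M) :
    famCentre 𝓘(ℝ, En n) (ContinuousLinearEquiv.refl ℝ (En n)) M x = ctr n x := rfl

theorem famTarget_eq (x : M) :
    famTarget 𝓘(ℝ, En n) (ContinuousLinearEquiv.refl ℝ (En n)) M x = tg n x := by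
  ext y
  simp [famTarget, tg]

/-- the Ricci flow equation at the chart centres gives it in all charts -/
theorem rfOn_of_centre {m : ℝ → Met n M} {J : Set ℝ}
    (h : ∀ x, ∀ t ∈ J, ∀ i j, HasDerivAt (fun s => (m s).G x (ctr n x) i j)
      (-2 * ricci ((m t).G x) (ctr n x) i j) t) : RFOn m J := by
  intro x t ht y hy i j
  set p := (chartAt (En n) x).symm y with hp
  have hd := mem_tdom_self hy
  have h1 : ∀ s, (m s).G x y i j = ∑ a, ∑ b, (m s).G p (ctr n p) a b *
      (fderiv ℝ (Bo84.trans x p) y (EuclideanSpace.single i 1)) a *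
      (fderiv ℝ (Bo84.trans x p) y (EuclideanSpace.single j 1)) b := fun s =>
    ((m s).pull_trans x p).pull y hd i j
  have h2 := ((m t).pull_trans x p).ricci_pull hd (EuclideanSpace.single i 1)
    (EuclideanSpace.single j 1)
  have h3 : ∑ a, ∑ b, ricci ((m t).G x) y a b * (EuclideanSpace.single i (1:ℝ) : En n) a *
      (EuclideanSpace.single j (1:ℝ) : En n) b = ricci ((m t).G x) y i j := by
    simp
  rw [h3] at h2
  simp_rw [h1]
  rw [h2, Finset.mul_sum]
  refine HasDerivAt.fun_sum fun a _ => ?_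
  rw [Finset.mul_sum]
  refine HasDerivAt.fun_sum fun b _ => ?_
  have h4 := ((h p t ht a b).mul_const
    ((fderiv ℝ (Bo84.trans x p) y (EuclideanSpace.single i 1)) a)).mul_const
    ((fderiv ℝ (Bo84.trans x p) y (EuclideanSpace.single j 1)) b)
  refine h4.congr_deriv ?_
  change _ = -2 * (ricci ((m t).G p) (ctr n p) a b * _ * _)
  ring

theorem SmFam.mono {m : ℝ → Met n M} {J J' : Set ℝ} (h : SmFam m J) (hJ : J' ⊆ J) :
    SmFam m J' := fun x i j => (h x i j).mono (prod_mono hJ Subset.rfl)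

theorem SmFam.differentiableAt {m : ℝ → Met n M} {J : Set ℝ} (h : SmFam m J) {t : ℝ}
    (ht : J ∈ 𝓝 t) (x : M) {y : En n} (hy : y ∈ tg n x) (i j : Fin n) :
    DifferentiableAt ℝ (fun s => (m s).G x y i j) t := by
  have h1 : ContDiffAt ℝ ∞ (fun p : ℝ × En n => (m p.1).G x p.2 i j) (t, y) :=
    (h x i j).contDiffAt (prod_mem_nhds ht ((chartAt (En n) x).open_target.mem_nhds hy))
  have h2 : DifferentiableAt ℝ (fun s : ℝ => (s, y)) t :=
    differentiableAt_id.prodMk (differentiableAt_const y)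
  exact (h1.differentiableAt (by simp)).comp t h2

variable {M : Type*} [TopologicalSpace M] [ChartedSpace E4 M] [IsManifold 𝓘(ℝ, E4) ∞ M]

/-- a Ricci flow of the Prelude as a `Flow` -/
theorem exists_flow {T : ℝ} (hT : 0 < T) {g : FormFamily 𝓘(ℝ, E4) M}
    (hg : IsRicciFlowOn 𝓘(ℝ, E4) (ContinuousLinearEquiv.refl ℝ E4) M g T) :
    ∃ F : Flow M, F.T = T ∧ ∀ t ∈ Ico 0 T, (F.m t).inner = g t := by
  classical
  have hs : ∀ t ∈ Ico 0 T, ∀ x i j, ContDiffOn ℝ ∞ (fun y => frmG (g t) x y i j) (tg 4 x) := by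
    intro t ht x i j
    have h1 := (hg.1 x).1 i j
    rw [famTarget_eq] at h1
    have h2 : ContDiffOn ℝ ∞ (fun y : E4 => (t, y)) (tg 4 x) :=
      (contDiff_const.prodMk contDiff_id).contDiffOn
    exact h1.comp h2 fun y hy => ⟨ht, hy⟩
  have hp : ∀ t ∈ Ico 0 T, ∀ x, (frmG (g t) x (ctr 4 x)).PosDef := by
    intro t ht x
    refine (hg.1 x).2 t ht _ ?_
    rw [famTarget_eq]
    exact mem_chart_target E4 x
  have h0 : (0:ℝ) ∈ Ico 0 T := ⟨le_rfl, hT⟩
  let m : ℝ → Met 4 M := fun t =>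
    if ht : t ∈ Ico 0 T then Met.ofFrm (g t) (hs t ht) (hp t ht)
    else Met.ofFrm (g 0) (hs 0 h0) (hp 0 h0)
  have hm : ∀ t ∈ Ico 0 T, (m t).inner = g t := fun t ht => by
    simp only [m, dif_pos ht]; rfl
  have hG : ∀ t ∈ Ico 0 T, ∀ x, (m t).G x = frmG (g t) x := fun t ht x => by
    rw [Met.G_eq_frmG, hm t ht]
  have hsm : SmFam m (Ico 0 T) := by
    intro x i j
    have h1 := (hg.1 x).1 i j
    rw [famTarget_eq] at h1
    refine h1.congr fun p hp => ?_
    rw [hG p.1 hp.1]; rfl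
  refine ⟨⟨T, hT, m, hsm, rfOn_of_centre fun x t ht i j => ?_⟩, rfl, hm⟩
  have ht' : t ∈ Ico 0 T := Ioo_subset_Ico_self ht
  have hn : Ico 0 T ∈ 𝓝 t := Ico_mem_nhds ht.1 ht.2
  have h1 := (hsm.differentiableAt hn x (mem_chart_target E4 x) i j).hasDerivAt
  have h2 : (fun s => (m s).G x (ctr 4 x) i j) =ᶠ[𝓝 t]
      fun s => frmG (g s) x (ctr 4 x) i j := by
    filter_upwards [hn] with s hs
    rw [hG s hs]
  rw [h2.deriv_eq] at h1
  have h3 := hg.2 x t ht i j
  rw [hG t ht']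
  exact h3 ▸ h1

/-- a `Flow` is a Ricci flow of the Prelude -/
theorem Flow.isRicciFlowOn (F : Flow M) :
    IsRicciFlowOn 𝓘(ℝ, E4) (ContinuousLinearEquiv.refl ℝ E4) M (fun t => (F.m t).inner) F.T := by
  refine ⟨fun x => ⟨fun i j => ?_, fun t _ y hy => ?_⟩, fun x t ht i j => ?_⟩
  · rw [famTarget_eq]
    exact F.sm x i j
  · rw [famTarget_eq] at hy
    exact ((F.m t).isRiem x).posDef y hy
  · exact (F.rf x t ht _ (mem_chart_target E4 x) i j).deriv

/-- **the bridge**: `S0319` for `M` follows from the extension property of `Flow`s with bounded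
scalar curvature. -/
theorem s0319_of (H : ∀ (F : Flow M) (C : ℝ), F.BddR C → F.Extends)
    (T : ℝ) (hT : 0 < T) (g : FormFamily 𝓘(ℝ, E4) M)
    (hg : IsRicciFlowOn 𝓘(ℝ, E4) (ContinuousLinearEquiv.refl ℝ E4) M g T)
    (hR : HasBoundedScalarCurvature 𝓘(ℝ, E4) (ContinuousLinearEquiv.refl ℝ E4) M g T) :
    ∃ ε : ℝ, 0 < ε ∧ ∃ g' : FormFamily 𝓘(ℝ, E4) M,
      IsRicciFlowOn 𝓘(ℝ, E4) (ContinuousLinearEquiv.refl ℝ E4) M g' (T + ε) ∧
        ∀ t ∈ Set.Ico 0 T, g' t = g t := by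
  obtain ⟨F, hFT, hF⟩ := exists_flow hT hg
  obtain ⟨C, hC⟩ := hR
  have hB : F.BddR C := by
    intro t ht x
    rw [hFT] at ht
    have h1 := hC t ht x
    rw [famCoeff_eq, ← hF t ht] at h1
    exact h1
  obtain ⟨F', h1, h2⟩ := H F C hB
  refine ⟨F'.T - T, by rw [← hFT]; linarith, fun t => (F'.m t).inner, ?_, fun t ht => ?_⟩
  · have : T + (F'.T - T) = F'.T := by ring
    rw [this]
    exact F'.isRicciFlowOn
  · have ht' : t ∈ Ico 0 F.T := by rw [hFT]; exact ht
    change (F'.m t).inner = g t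
    rw [h2 t ht', hF t ht]

end Crest.Agent.N207

end
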