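import Crest.Agent.N207.B.Pb1
import Crest.Agent.N207.A.Co3

/-!
# Row 207, block B STE, part 1 (helper69): the DeTurck operator in coordinates

`DT G H = -2 Ric(G) - L_b G`, `b = dtV G H`, equals `G^{kl} ∂ₖ∂ₗ G_{ij}` plus a polynomial in the
1-jet of `G`, `G⁻¹` and the 1-jet of the Christoffel symbols of `H`.
-/

set_option autoImplicit false
set_option linter.unusedSectionVars false

open scoped ContDiff Topology
open Set Filter
open Crest.GeometryTopology.CoordMetric Crest.GeometryTopology.ChartCurvature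
open Crest.Agent.R247 Crest.Agent.R202.Tens

noncomputable section

namespace Crest.Agent.N207.B

variable {n : ℕ}

/-- arrays -/
abbrev A2 (n : ℕ) := Matrix (Fin n) (Fin n) ℝ
/-- arrays -/
abbrev A3 (n : ℕ) := Fin n → Fin n → Fin n → ℝ
/-- arrays -/
abbrev A4 (n : ℕ) := Fin n → Fin n → Fin n → Fin n → ℝ

/-- formal Christoffel symbols -/
def fchr (Ai : A2 n) (P : A3 n) : A3 n := fun k i j =>
  (1 / 2) * ∑ l, Ai k l * (P i j l + P j i l - P l i j)

/-- formal derivative of the inverse -/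
def fdi (Ai : A2 n) (P : A3 n) : A3 n := fun m a b => -∑ c, ∑ d, Ai a c * P m c d * Ai d b

/-- second order part of the derivative of the Christoffel symbols -/
def fs2 (Ai : A2 n) (PP : A4 n) : A4 n := fun m k i j =>
  (1 / 2) * ∑ l, Ai k l * (PP m i j l + PP m j i l - PP m l i j)

/-- first order part of the derivative of the Christoffel symbols -/
def fs1 (Ai : A2 n) (P : A3 n) : A4 n := fun m k i j =>
  (1 / 2) * ∑ l, fdi Ai P m k l * (P i j l + P j i l - P l i j)

/-- formal DeTurck vector field -/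
def fb (Ai : A2 n) (P C : A3 n) (k : Fin n) : ℝ :=
  -∑ p, ∑ q, Ai p q * (fchr Ai P k p q - C k p q)

/-- formal derivative of the DeTurck vector field; `D` = derivative of the Christoffel symbols -/
def fdb (Ai : A2 n) (P C : A3 n) (D dC : A4 n) (m k : Fin n) : ℝ :=
  -∑ p, ∑ q, (Ai p q * (D m k p q - dC m k p q) + fdi Ai P m p q * (fchr Ai P k p q - C k p q))

/-- formal DeTurck operator; `D` = derivative of the Christoffel symbols -/
def fDT (A Ai : A2 n) (P C : A3 n) (D dC : A4 n) (i j : Fin n) : ℝ :=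
  -2 * ((∑ k, D k k i j) - (∑ k, D j k k i) + (∑ k, ∑ l, fchr Ai P k k l * fchr Ai P l i j) -
    ∑ k, ∑ l, fchr Ai P k j l * fchr Ai P l k i) -
  ∑ k, (fb Ai P C k * P k i j + A k j * fdb Ai P C D dC i k + A i k * fdb Ai P C D dC j k)

theorem fDT_add (A Ai : A2 n) (P C : A3 n) (D D' dC : A4 n) (i j : Fin n) :
    fDT A Ai P C (D + D') dC i j = fDT A Ai P C D dC i j +
      (-2 * ((∑ k, D' k k i j) - ∑ k, D' j k k i) + (∑ p, ∑ q, Ai p q * ∑ k, A k j * D' i k p q) +
        ∑ p, ∑ q, Ai p q * ∑ k, A i k * D' j k p q) := by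
  have h1 : ∀ m k, fdb Ai P C (D + D') dC m k =
      fdb Ai P C D dC m k - ∑ p, ∑ q, Ai p q * D' m k p q := by
    intro m k
    simp only [fdb, Pi.add_apply]
    rw [← neg_add', ← Finset.sum_add_distrib]
    congr 1
    refine Finset.sum_congr rfl fun p _ => ?_
    rw [← Finset.sum_add_distrib]
    exact Finset.sum_congr rfl fun q _ => by ring
  have h2 : ∀ (B : Fin n → ℝ) (m : Fin n), ∑ p, ∑ q, Ai p q * ∑ k, B k * D' m k p q =
      ∑ k, B k * ∑ p, ∑ q, Ai p q * D' m k p q := by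
    intro B m
    simp only [Finset.mul_sum]
    conv_rhs => rw [Finset.sum_comm]
    refine Finset.sum_congr rfl fun p _ => ?_
    rw [Finset.sum_comm]
    exact Finset.sum_congr rfl fun k _ => Finset.sum_congr rfl fun q _ => by ring
  rw [h2 (fun k => A k j), h2 (fun k => A i k)]
  simp only [fDT, h1, Pi.add_apply, Finset.sum_add_distrib, mul_sub, Finset.sum_sub_distrib]
  ring

theorem sum_fs2 {A Ai : A2 n} (h : ∀ a b, ∑ m, A a m * Ai m b = if a = b then 1 else 0)
    (PP : A4 n) (a m p q : Fin n) :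
    ∑ k, A a k * fs2 Ai PP m k p q = (1 / 2) * (PP m p q a + PP m q p a - PP m a p q) := by
  have h1 : ∑ k, A a k * fs2 Ai PP m k p q =
      (1 / 2) * ∑ l, (∑ k, A a k * Ai k l) * (PP m p q l + PP m q p l - PP m l p q) := by
    simp only [fs2, Finset.mul_sum, Finset.sum_mul]
    rw [Finset.sum_comm]
    exact Finset.sum_congr rfl fun l _ => Finset.sum_congr rfl fun k _ => by ring
  rw [h1]
  simp [h]

/-- the principal part of the DeTurck operator -/
theorem fDT_princ {A Ai : A2 n} (hA : ∀ a b, A a b = A b a) (hAi : ∀ a b, Ai a b = Ai b a)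
    (h : ∀ a b, ∑ m, A a m * Ai m b = if a = b then 1 else 0) {PP : A4 n}
    (h1 : ∀ a b c d, PP a b c d = PP b a c d) (h2 : ∀ a b c d, PP a b c d = PP a b d c)
    (P C : A3 n) (D dC : A4 n) (i j : Fin n) :
    fDT A Ai P C (D + fs2 Ai PP) dC i j =
      (∑ k, ∑ l, Ai k l * PP k l i j) + fDT A Ai P C D dC i j := by
  rw [fDT_add, add_comm]
  congr 1
  have e1 : ∀ m p q, ∑ k, A k j * fs2 Ai PP m k p q = _ := fun m p q =>
    (Finset.sum_congr rfl fun k _ => by rw [hA k j]).trans (sum_fs2 h PP j m p q)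
  simp only [e1, sum_fs2 h]
  have sw : ∀ f : Fin n → Fin n → ℝ, ∑ k, ∑ l, Ai k l * f k l = ∑ k, ∑ l, Ai k l * f l k := by
    intro f
    rw [Finset.sum_comm]
    exact Finset.sum_congr rfl fun k _ => Finset.sum_congr rfl fun l _ => by rw [hAi]
  have a1 : ∑ k, ∑ l, Ai k l * PP j k i l = ∑ k, ∑ l, Ai k l * PP k j i l := by
    simp only [h1 j]
  have a2 : ∑ k, ∑ l, Ai k l * PP j l k i = ∑ k, ∑ l, Ai k l * PP k j i l := by
    rw [sw fun k l => PP j l k i]
    exact Finset.sum_congr rfl fun k _ => Finset.sum_congr rfl fun l _ => by rw [h1 j, h2 k j l]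
  have a3 : ∑ k, ∑ l, Ai k l * PP j k l i = ∑ k, ∑ l, Ai k l * PP k j i l :=
    Finset.sum_congr rfl fun k _ => Finset.sum_congr rfl fun l _ => by rw [h1 j, h2 k j l]
  have a4 : ∑ k, ∑ l, Ai k l * PP i k l j = ∑ k, ∑ l, Ai k l * PP k i j l :=
    Finset.sum_congr rfl fun k _ => Finset.sum_congr rfl fun l _ => by rw [h1 i, h2 k i l]
  have a5 : ∑ k, ∑ l, Ai k l * PP i l k j = ∑ k, ∑ l, Ai k l * PP k i j l := by
    rw [sw fun k l => PP i l k j, a4]
  have a6 : ∑ k, ∑ l, Ai k l * PP j i k l = ∑ k, ∑ l, Ai k l * PP i j k l := by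
    simp only [h1 j i]
  simp only [fs2, ← Finset.mul_sum, mul_add, mul_sub, Finset.sum_add_distrib,
    Finset.sum_sub_distrib, mul_left_comm _ (1 / 2 : ℝ)]
  rw [a1, a2, a3, a4, a5, a6]
  ring

/-! ### smooth dependence -/

section smooth

variable {X : Type*} [NormedAddCommGroup X] [NormedSpace ℝ X] {S : Set X}
  {A Ai : X → A2 n} {P C : X → A3 n} {D dC : X → A4 n}

theorem sm_fchr (hAi : ∀ a b, ContDiffOn ℝ ∞ (fun q => Ai q a b) S)
    (hP : ∀ a b c, ContDiffOn ℝ ∞ (fun q => P q a b c) S) (k i j : Fin n) :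
    ContDiffOn ℝ ∞ (fun q => fchr (Ai q) (P q) k i j) S :=
  contDiffOn_const.mul (ContDiffOn.sum fun l _ =>
    (hAi k l).mul (((hP i j l).add (hP j i l)).sub (hP l i j)))

theorem sm_fdi (hAi : ∀ a b, ContDiffOn ℝ ∞ (fun q => Ai q a b) S)
    (hP : ∀ a b c, ContDiffOn ℝ ∞ (fun q => P q a b c) S) (m a b : Fin n) :
    ContDiffOn ℝ ∞ (fun q => fdi (Ai q) (P q) m a b) S :=
  (ContDiffOn.sum fun c _ => ContDiffOn.sum fun d _ =>
    ((hAi a c).mul (hP m c d)).mul (hAi d b)).neg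

theorem sm_fs1 (hAi : ∀ a b, ContDiffOn ℝ ∞ (fun q => Ai q a b) S)
    (hP : ∀ a b c, ContDiffOn ℝ ∞ (fun q => P q a b c) S) (m k i j : Fin n) :
    ContDiffOn ℝ ∞ (fun q => fs1 (Ai q) (P q) m k i j) S :=
  contDiffOn_const.mul (ContDiffOn.sum fun l _ =>
    (sm_fdi hAi hP m k l).mul (((hP i j l).add (hP j i l)).sub (hP l i j)))

theorem sm_fDT (hA : ∀ a b, ContDiffOn ℝ ∞ (fun q => A q a b) S)
    (hAi : ∀ a b, ContDiffOn ℝ ∞ (fun q => Ai q a b) S)
    (hP : ∀ a b c, ContDiffOn ℝ ∞ (fun q => P q a b c) S)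
    (hC : ∀ a b c, ContDiffOn ℝ ∞ (fun q => C q a b c) S)
    (hD : ∀ a b c d, ContDiffOn ℝ ∞ (fun q => D q a b c d) S)
    (hdC : ∀ a b c d, ContDiffOn ℝ ∞ (fun q => dC q a b c d) S) (i j : Fin n) :
    ContDiffOn ℝ ∞ (fun q => fDT (A q) (Ai q) (P q) (C q) (D q) (dC q) i j) S := by
  have h1 := sm_fchr hAi hP
  have h2 : ∀ k, ContDiffOn ℝ ∞ (fun q => fb (Ai q) (P q) (C q) k) S := fun k =>
    (ContDiffOn.sum fun p _ => ContDiffOn.sum fun q _ =>
      (hAi p q).mul ((h1 k p q).sub (hC k p q))).neg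
  have h3 : ∀ m k, ContDiffOn ℝ ∞ (fun q => fdb (Ai q) (P q) (C q) (D q) (dC q) m k) S :=
    fun m k => (ContDiffOn.sum fun p _ => ContDiffOn.sum fun q _ =>
      ((hAi p q).mul ((hD m k p q).sub (hdC m k p q))).add
        ((sm_fdi hAi hP m p q).mul ((h1 k p q).sub (hC k p q)))).neg
  refine (contDiffOn_const.mul (ContDiffOn.sub (ContDiffOn.add (ContDiffOn.sub ?_ ?_) ?_) ?_)).sub
    (ContDiffOn.sum fun k _ => (((h2 k).mul (hP k i j)).add ((hA k j).mul (h3 i k))).add
      ((hA i k).mul (h3 j k)))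
  · exact ContDiffOn.sum fun k _ => hD k k i j
  · exact ContDiffOn.sum fun k _ => hD j k k i
  · exact ContDiffOn.sum fun k _ => ContDiffOn.sum fun l _ => (h1 k k l).mul (h1 l i j)
  · exact ContDiffOn.sum fun k _ => ContDiffOn.sum fun l _ => (h1 k j l).mul (h1 l k i)

end smooth

/-! ### the operator on metric fields -/

/-- the DeTurck vector field `-G^{pq} (Γ(G) - Γ(H))^k_{pq}` -/
def dtV (G H : MetricField n) (y : En n) : En n := WithLp.toLp 2 fun k =>
  -∑ p, ∑ q, (G y)⁻¹ p q * (christoffel G y k p q - christoffel H y k p q)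

/-- the DeTurck operator -/
def DT (G H : MetricField n) (y : En n) (i j : Fin n) : ℝ :=
  -2 * ricci G y i j - lieG (dtV G H) G y i j

/-- first derivatives -/
def j1 (G : MetricField n) (y : En n) : A3 n := fun m i j => pderiv m (fun z => G z i j) y

/-- second derivatives -/
def j2 (G : MetricField n) (y : En n) : A4 n := fun m a i j =>
  pderiv m (pderiv a fun z => G z i j) y

/-- derivatives of the Christoffel symbols -/
def dchr (G : MetricField n) (y : En n) : A4 n := fun m k i j =>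
  pderiv m (fun z => christoffel G z k i j) y

variable {G H : MetricField n} {U : Set (En n)} {y : En n}

theorem dchr_eq (hG : IsRiemannianOn G U) (hy : y ∈ U) :
    dchr G y = fs1 (G y)⁻¹ (j1 G y) + fs2 (G y)⁻¹ (j2 G y) := by
  funext m k i j
  have hi : ∀ a b, DifferentiableAt ℝ (fun z => (G z)⁻¹ a b) y := fun a b =>
    dAt (sm_inv hG a b) hG.isOpen hy
  have hp : ∀ l a b, DifferentiableAt ℝ (pderiv l fun z => G z a b) y := fun l a b =>
    dAt (sm_pd hG.isOpen (hG.contDiffOn a b) l) hG.isOpen hy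
  have h1 : (fun z => christoffel G z k i j) = fun z => (1 / 2) * ∑ l, (G z)⁻¹ k l *
      (pderiv i (fun y => G y j l) z + pderiv j (fun y => G y i l) z -
        pderiv l (fun y => G y i j) z) := rfl
  have h2 : ∀ l, DifferentiableAt ℝ (fun z => pderiv i (fun y => G y j l) z +
      pderiv j (fun y => G y i l) z - pderiv l (fun y => G y i j) z) y := fun l =>
    ((hp i j l).add (hp j i l)).sub (hp l i j)
  rw [dchr, h1, pd_cmul, pd_sum _ _ fun l _ => (hi k l).fun_mul (h2 l)]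
  simp only [Pi.add_apply, fs1, fs2, ← mul_add, ← Finset.sum_add_distrib]
  congr 1
  refine Finset.sum_congr rfl fun l _ => ?_
  rw [pd_mul _ (hi k l) (h2 l), pd_sub _ ((hp i j l).fun_add (hp j i l)) (hp l i j),
    pd_add _ (hp i j l) (hp j i l), pd_ginv' hG hy]
  simp only [fdi, j1, j2]

theorem sm_dtV (hG : IsRiemannianOn G U) (hH : IsRiemannianOn H U) (k : Fin n) :
    ContDiffOn ℝ ∞ (fun y => dtV G H y k) U :=
  (ContDiffOn.sum fun p _ => ContDiffOn.sum fun q _ =>
    (sm_inv hG p q).mul ((sm_chr hG k p q).sub (sm_chr hH k p q))).neg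

theorem contDiffOn_dtV (hG : IsRiemannianOn G U) (hH : IsRiemannianOn H U) :
    ContDiffOn ℝ ∞ (dtV G H) U := contDiffOn_euclidean.2 (sm_dtV hG hH)

theorem pd_dtV (hG : IsRiemannianOn G U) (hH : IsRiemannianOn H U) (hy : y ∈ U) (m k : Fin n) :
    pderiv m (fun z => dtV G H z k) y =
      fdb (G y)⁻¹ (j1 G y) (christoffel H y) (dchr G y) (dchr H y) m k := by
  have hi : ∀ a b, DifferentiableAt ℝ (fun z => (G z)⁻¹ a b) y := fun a b =>
    dAt (sm_inv hG a b) hG.isOpen hy
  have h1 : ∀ p q, DifferentiableAt ℝ (fun z => christoffel G z k p q) y := fun p q =>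
    dAt (sm_chr hG k p q) hG.isOpen hy
  have h2 : ∀ p q, DifferentiableAt ℝ (fun z => christoffel H z k p q) y := fun p q =>
    dAt (sm_chr hH k p q) hG.isOpen hy
  have h3 : (fun z => dtV G H z k) = fun z => -∑ p, ∑ q,
      (G z)⁻¹ p q * (christoffel G z k p q - christoffel H z k p q) := rfl
  rw [h3, pd_neg, pd_sum _ _ fun p _ => DifferentiableAt.fun_sum fun q _ =>
    (hi p q).fun_mul ((h1 p q).fun_sub (h2 p q)), fdb]
  congr 1
  refine Finset.sum_congr rfl fun p _ => ?_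
  rw [pd_sum _ _ fun q _ => (hi p q).fun_mul ((h1 p q).fun_sub (h2 p q))]
  refine Finset.sum_congr rfl fun q _ => ?_
  rw [pd_mul _ (hi p q) ((h1 p q).fun_sub (h2 p q)), pd_sub _ (h1 p q) (h2 p q), pd_ginv' hG hy]
  exact add_comm _ _

/-- **the DeTurck operator is quasilinear elliptic** -/
theorem DT_eq (hG : IsRiemannianOn G U) (hH : IsRiemannianOn H U) (hy : y ∈ U) (i j : Fin n) :
    DT G H y i j = (∑ k, ∑ l, (G y)⁻¹ k l * j2 G y k l i j) +
      fDT (G y) (G y)⁻¹ (j1 G y) (christoffel H y) (fs1 (G y)⁻¹ (j1 G y)) (dchr H y) i j := by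
  rw [← fDT_princ (A := G y) (Ai := (G y)⁻¹) (metric_symm hG hy) (ginv_symm hG hy) (g_ginv hG hy),
    ← dchr_eq hG hy]
  · have h1 : pderiv j (fun y => ∑ k, christoffel G y k k i) y = ∑ k, dchr G y j k k i :=
      pd_sum _ _ fun k _ => dAt (sm_chr hG k k i) hG.isOpen hy
    simp only [DT, ricci, lieG, pd_dtV hG hH hy, h1]
    rfl
  · intro a b c d
    exact pd_comm a b (c2At (hG.contDiffOn c d) hG.isOpen hy)
  · intro a b c d
    refine pd_congr _ (pd_congr_ev _ ?_)
    filter_upwards [hG.isOpen.mem_nhds hy] with z hz using metric_symm hG hz c d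

end Crest.Agent.N207.B

end
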