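import Crest.Agent.N207.B.Dt1
import Crest.Agent.N207.AI.Nat
import Crest.Agent.N207.P.Tr
import Crest.Agent.R249.Bia3_104

/-!
# Row 207, block B STE, part 2 (helper69): naturality of the DeTurck operator
-/

set_option autoImplicit false
set_option linter.unusedSectionVars false

open scoped ContDiff Topology
open Set Filter
open Crest.GeometryTopology.CoordMetric Crest.GeometryTopology.ChartCurvature
open Crest.Agent.R247 Crest.Agent.R202.Tens

noncomputable section

namespace Crest.Agent.N207.B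

variable {n : ℕ} {G G' H H' : MetricField n} {Φ : En n → En n} {V W W' : Set (En n)} {y : En n}

theorem dtV_frame {e : Fin n → En n} (he : Bo84.IsFrame (G y) e) (H : MetricField n) :
    dtV G H y = -∑ a, (Gam G y (e a) (e a) - Gam H y (e a) (e a)) := by
  ext k
  simp only [dtV, PiLp.neg_apply, WithLp.ofLp_sum, Finset.sum_apply, PiLp.sub_apply, Gam_apply,
    he.inv, ← Finset.sum_sub_distrib, Finset.sum_mul]
  congr 1
  conv_rhs => rw [Finset.sum_comm]
  refine Finset.sum_congr rfl fun p _ => ?_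
  rw [Finset.sum_comm]
  exact Finset.sum_congr rfl fun q _ => Finset.sum_congr rfl fun a _ => by ring

theorem dtV_pull (p : Pull G' G Φ V W) (q : Pull H' H Φ V W') (hy : y ∈ V) :
    dtV G H (Φ y) = fderiv ℝ Φ y (dtV G' H' y) := by
  obtain ⟨e, he, he'⟩ := AI.exists_frames p hy
  rw [dtV_frame he, dtV_frame he', map_neg, map_sum]
  congr 1
  refine Finset.sum_congr rfl fun a _ => ?_
  rw [map_sub, p.gam_eq hy, q.gam_eq hy]
  abel

theorem sum_single2 (f : Fin n → Fin n → ℝ) (i j : Fin n) :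
    ∑ a, ∑ c, f a c * (EuclideanSpace.single i (1 : ℝ) : En n) a *
      (EuclideanSpace.single j (1 : ℝ) : En n) c = f i j := by
  simp

theorem lieG_pull (p : Pull G' G Φ V W) (hy : y ∈ V) {b b' : En n → En n}
    (hb' : ContDiffAt ℝ ∞ b' y) (hb : DifferentiableAt ℝ b (Φ y))
    (h : ∀ᶠ z in 𝓝 y, b (Φ z) = fderiv ℝ Φ z (b' z)) (i j : Fin n) :
    lieG b' G' y i j = ∑ a, ∑ c, lieG b G (Φ y) a c *
      (fderiv ℝ Φ y (EuclideanSpace.single i 1)) a *
      (fderiv ℝ Φ y (EuclideanSpace.single j 1)) c := by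
  set F : ℝ × En n → En n := fun q => q.2 + q.1 • b' q.2 with hF
  have hF0 : ∀ w, F (0, w) = w := fun w => by simp [hF]
  have hFs : ContDiffAt ℝ ∞ F (0, y) :=
    contDiffAt_snd.add (contDiffAt_fst.smul
      (ContDiffAt.comp (g := b') (f := Prod.snd) ((0 : ℝ), y) hb' contDiffAt_snd))
  have hFd : ∀ w, HasDerivAt (fun s => F (s, w)) (b' w) 0 := fun w => by
    have h0 := ((hasDerivAt_id (0 : ℝ)).smul_const (b' w)).const_add w
    rw [one_smul] at h0
    exact h0
  have hΦ : ContDiffAt ℝ ∞ Φ (F (0, y)) := by rw [hF0]; exact p.contDiffAt hy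
  have cst : ∀ (A : MetricField n) (z : En n) (a c : Fin n),
      HasDerivAt (fun _ : ℝ => A z a c) ((fun _ _ => 0 : Fin n → Fin n → ℝ) a c) 0 :=
    fun A z a c => hasDerivAt_const _ _
  have h1 := hasDerivAt_pull (Φ := F) (G := fun _ => G') (b := b') hFs
    (by rw [hF0]; exact hb'.differentiableAt (by simp))
    (Eventually.of_forall fun w => by rw [hF0]; exact hFd w)
    (fun a c => by
      rw [hF0]
      exact DifferentiableAt.comp (g := fun z => G' z a c) (f := Prod.snd) ((0 : ℝ), y)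
        (differentiableAt_entry p.riem' hy a c) differentiableAt_snd)
    (cst G' _) (EuclideanSpace.single i 1) (EuclideanSpace.single j 1)
  have h2 := hasDerivAt_pull (Φ := fun q => Φ (F q)) (G := fun _ => G) (b := b)
    (hΦ.comp ((0 : ℝ), y) hFs) (by rw [hF0]; exact hb)
    (by
      filter_upwards [h, p.isOpen.mem_nhds hy] with w hw hw'
      rw [hF0, hw]
      have h3 : HasFDerivAt Φ (fderiv ℝ Φ w) (F (0, w)) := by
        rw [hF0]
        exact ((p.contDiffAt hw').differentiableAt (by simp)).hasFDerivAt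
      exact h3.comp_hasDerivAt 0 (hFd w))
    (fun a c => by
      rw [hF0]
      exact DifferentiableAt.comp (g := fun z => G z a c) (f := Prod.snd) ((0 : ℝ), Φ y)
        (differentiableAt_entry p.riem (p.maps y hy) a c) differentiableAt_snd)
    (cst G _) (EuclideanSpace.single i 1) (EuclideanSpace.single j 1)
  simp only [hF0, zero_add] at h1 h2
  rw [fderiv_fun_id] at h1
  simp only [ContinuousLinearMap.id_apply, sum_single2] at h1
  refine h1.unique (h2.congr_of_eventuallyEq ?_)
  have c : ContinuousAt (fun s : ℝ => (s, y)) 0 := by fun_prop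
  have e1 : ∀ᶠ q in 𝓝 ((0 : ℝ), y), F q ∈ V :=
    hFs.continuousAt.eventually (by rw [hF0]; exact p.isOpen.mem_nhds hy)
  have e2 : ∀ᶠ q in 𝓝 ((0 : ℝ), y), DifferentiableAt ℝ F q :=
    ((hFs.of_le (m := 1) (by simp)).eventually (by simp)).mono fun q hq =>
      hq.differentiableAt (by simp)
  filter_upwards [c.eventually e1, c.eventually e2] with s hs1 hs2
  have h4 : DifferentiableAt ℝ (fun w => F (s, w)) y :=
    hs2.comp y (by fun_prop : DifferentiableAt ℝ (fun w : En n => (s, w)) y)
  have h5 : fderiv ℝ (fun w => Φ (F (s, w))) y =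
      (fderiv ℝ Φ (F (s, y))).comp (fderiv ℝ (fun w => F (s, w)) y) :=
    fderiv_comp y ((p.contDiffAt hs1).differentiableAt (by simp)) h4
  rw [← bil_apply, ← bil_apply, p.bil_eq hs1, h5]
  rfl

theorem DT_pull (p : Pull G' G Φ V W) (q : Pull H' H Φ V W') (hy : y ∈ V) (i j : Fin n) :
    DT G' H' y i j = ∑ a, ∑ c, DT G H (Φ y) a c *
      (fderiv ℝ Φ y (EuclideanSpace.single i 1)) a *
      (fderiv ℝ Φ y (EuclideanSpace.single j 1)) c := by
  have ho : IsOpen (W ∩ W') := p.riem.isOpen.inter q.riem.isOpen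
  have h1 := lieG_pull p hy (b := dtV G H) (b' := dtV G' H')
    ((contDiffOn_dtV p.riem' q.riem').contDiffAt (p.isOpen.mem_nhds hy))
    (((contDiffOn_dtV (riemOn_mono p.riem ho inter_subset_left)
      (riemOn_mono q.riem ho inter_subset_right)).contDiffAt
        (ho.mem_nhds ⟨p.maps y hy, q.maps y hy⟩)).differentiableAt (by simp))
    (by filter_upwards [p.isOpen.mem_nhds hy] with z hz using dtV_pull p q hz) i j
  have h2 := p.ricci_pull hy (EuclideanSpace.single i 1) (EuclideanSpace.single j 1)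
  rw [sum_single2] at h2
  rw [DT, h1, h2, Finset.mul_sum, ← Finset.sum_sub_distrib]
  refine Finset.sum_congr rfl fun a _ => ?_
  rw [Finset.mul_sum, ← Finset.sum_sub_distrib]
  refine Finset.sum_congr rfl fun c _ => ?_
  rw [DT]
  ring

theorem DT_symm {U : Set (En n)} (hG : IsRiemannianOn G U) (hy : y ∈ U) (H : MetricField n)
    (i j : Fin n) : DT G H y i j = DT G H y j i := by
  rw [DT, DT, R249.Bia3_104.ricci_symm hG hy i j]
  congr 1
  refine Finset.sum_congr rfl fun k _ => ?_
  rw [pderiv_metric_symm hG hy k i j, metric_symm hG hy k j, metric_symm hG hy i k]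
  ring

/-! ### the trace of the Hessian of a vector valued function -/

variable {E : Type*} [NormedAddCommGroup E] [NormedSpace ℝ E]

/-- `G^{kl} (∂ₖ∂ₗ f - Γ(H)^m_{kl} ∂ₘ f)` -/
def trH (G H : MetricField n) (f : En n → E) (y : En n) : E :=
  P.Lop (G y)⁻¹ f y - ∑ k, ∑ l, ∑ m, ((G y)⁻¹ k l * christoffel H y m k l) • P.pd m f y

theorem pd_clm (L : E →L[ℝ] ℝ) {f : En n → E} (hf : DifferentiableAt ℝ f y) (k : Fin n) :
    pderiv k (fun z => L (f z)) y = L (P.pd k f y) :=
  congrArg (fun T : En n →L[ℝ] ℝ => T (EuclideanSpace.single k 1))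
    (L.hasFDerivAt.comp y hf.hasFDerivAt).fderiv

theorem clm_trH (L : E →L[ℝ] ℝ) (G H : MetricField n) {f : En n → E} (hf : ContDiffAt ℝ 2 f y) :
    L (trH G H f y) = trT G (hessT H fun z => L (f z)) y ![] := by
  have h1 : ∀ l, pderiv l (fun z => L (f z)) =ᶠ[𝓝 y] fun z => L (P.pd l f z) := fun l => by
    filter_upwards [hf.eventually (by simp)] with z hz using
      pd_clm L (hz.differentiableAt (by simp)) l
  have h2 : ∀ k l, pderiv k (pderiv l fun z => L (f z)) y = L (P.pd k (P.pd l f) y) := by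
    intro k l
    rw [pd_congr k (h1 l)]
    exact pd_clm L ((P.contDiffAt_pd (m := 1) hf (by norm_num) l).differentiableAt (by simp)) k
  rw [trT_zero_rank]
  simp only [hessT_apply, h2, fun m => (h1 m).eq_of_nhds, trH, P.Lop, map_sub, map_sum, map_smul,
    smul_eq_mul, mul_sub, Finset.sum_sub_distrib, Finset.mul_sum, mul_assoc]

theorem trH_pull (p : Pull G' G Φ V W) (q : Pull H' H Φ V W') (hy : y ∈ V) {f : En n → E}
    (hf : ContDiffAt ℝ 2 f (Φ y)) : trH G' H' (fun z => f (Φ z)) y = trH G H f (Φ y) := by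
  refine SeparatingDual.eq_iff_forall_dual_eq (R := ℝ).2 fun L => ?_
  have h1 : ContDiffAt ℝ 2 (fun z => f (Φ z)) y :=
    hf.comp y ((p.contDiffAt hy).of_le (by norm_cast))
  have h2 : ContDiffAt ℝ 2 (fun z => L (f z)) (Φ y) := L.contDiff.contDiffAt.comp _ hf
  have h3 := AI.hessT_pull q hy h2
  have h4 := AI.trT_pullT (k := 0) p hy (hessT H fun z => L (f z))
  rw [clm_trH L G' H' h1, clm_trH L G H hf]
  have h5 : trT G' (hessT H' fun z => L (f (Φ z))) y =
      trT G' (pullT Φ (hessT H fun z => L (f z))) y := by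
    funext I
    simp only [trT, h3]
  rw [h5, h4, pullT, AI.evT_zero_rank]

theorem trH_congr {f f' : En n → E} (h : f =ᶠ[𝓝 y] f') (G H : MetricField n) :
    trH G H f y = trH G H f' y := by
  simp only [trH, P.Lop, fun k => P.pd_congr h k, fun k l => P.pd_congr (P.pd_congr_ev h l) k]

end Crest.Agent.N207.B

end
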