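import Crest.Agent.N207.A.Mk

/-!
# Row 207, block B STE, part 3 (helper69): symmetric 2-tensors as vector valued functions

`Emb n M V`: `c x y` restricts a vector of `V` to a symmetric matrix in the chart at `x`, `e x y` is a
right inverse; both are compatible with the changes of charts (Whitney embedding).
-/

set_option autoImplicit false
set_option linter.unusedSectionVars false

open scoped ContDiff Manifold Topology Matrix
open Set Filter
open Crest.GeometryTopology.CoordMetric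
open Crest.Agent.R247 Crest.Agent.R202.Tens

noncomputable section

namespace Crest.Agent.N207.B

/-- Jacobian matrix of a linear map -/
def jac {n N : ℕ} (L : En n →L[ℝ] En N) : Matrix (Fin N) (Fin n) ℝ :=
  Matrix.of fun a i => L (EuclideanSpace.single i 1) a

theorem jac_mulVec {n N : ℕ} (L : En n →L[ℝ] En N) (v : En n) :
    jac L *ᵥ (WithLp.ofLp v) = WithLp.ofLp (L v) := by
  funext a
  conv_rhs => rw [eq_sum_single v]
  simp only [map_sum, map_smul, WithLp.ofLp_sum, Finset.sum_apply, WithLp.ofLp_smul,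
    Pi.smul_apply, smul_eq_mul, Matrix.mulVec, dotProduct, jac, Matrix.of_apply, mul_comm]

theorem jac_inj {n N : ℕ} {L : En n →L[ℝ] En N} (h : Function.Injective L) :
    Function.Injective (jac L).mulVec := by
  intro u v huv
  have h1 := jac_mulVec L (WithLp.toLp 2 u)
  have h2 := jac_mulVec L (WithLp.toLp 2 v)
  have h3 : L (WithLp.toLp 2 u) = L (WithLp.toLp 2 v) :=
    WithLp.ofLp_injective 2 (h1.symm.trans (huv.trans h2))
  exact WithLp.toLp_injective 2 (h h3)

theorem jac_comp {n m N : ℕ} (L : En m →L[ℝ] En N) (L' : En n →L[ℝ] En m) :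
    jac (L.comp L') = jac L * jac L' := by
  ext a i
  have h := congrFun (jac_mulVec L (L' (EuclideanSpace.single i 1))) a
  exact h.symm

theorem conj_apply {ι κ : Type*} [Fintype κ] (J : Matrix κ ι ℝ) (S : Matrix κ κ ℝ) (i j : ι) :
    (Jᵀ * S * J) i j = ∑ a, ∑ b, S a b * J a i * J b j := by
  simp only [Matrix.mul_apply, Matrix.transpose_apply, Finset.sum_mul]
  rw [Finset.sum_comm]
  exact Finset.sum_congr rfl fun a _ => Finset.sum_congr rfl fun b _ => by ring

/-- left inverse of an injective matrix -/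
def linv {n N : ℕ} (J : Matrix (Fin N) (Fin n) ℝ) : Matrix (Fin n) (Fin N) ℝ := (Jᵀ * J)⁻¹ * Jᵀ

theorem det_gram {n N : ℕ} {J : Matrix (Fin N) (Fin n) ℝ} (h : Function.Injective J.mulVec) :
    (Jᵀ * J).det ≠ 0 := by
  have h1 := (Matrix.PosDef.conjTranspose_mul_self J h).det_pos
  rw [Matrix.conjTranspose_eq_transpose_of_trivial] at h1
  exact h1.ne'

theorem linv_mul {n N : ℕ} {J : Matrix (Fin N) (Fin n) ℝ} (h : Function.Injective J.mulVec) :
    linv J * J = 1 := by
  rw [linv, Matrix.mul_assoc, Matrix.nonsing_inv_mul _ (det_gram h).isUnit]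

theorem mul_linv_mul {n N : ℕ} (J : Matrix (Fin N) (Fin n) ℝ) {D : Matrix (Fin n) (Fin n) ℝ}
    (h : Function.Injective D.mulVec) : D * linv (J * D) = linv J := by
  have hD : IsUnit D.det := (Matrix.isUnit_iff_isUnit_det D).1 (Matrix.mulVec_injective_iff_isUnit.1 h)
  have hD' : IsUnit Dᵀ.det := by rwa [Matrix.det_transpose]
  have h1 : (J * D)ᵀ * (J * D) = Dᵀ * ((Jᵀ * J) * D) := by
    simp only [Matrix.transpose_mul, Matrix.mul_assoc]
  rw [linv, h1, Matrix.mul_inv_rev, Matrix.mul_inv_rev, Matrix.transpose_mul, linv]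
  simp only [Matrix.mul_assoc]
  rw [Matrix.mul_nonsing_inv_cancel_left _ _ hD, Matrix.nonsing_inv_mul_cancel_left _ _ hD']

theorem sm_linv {X : Type*} [NormedAddCommGroup X] [NormedSpace ℝ X] {S : Set X} {n N : ℕ}
    {J : X → Matrix (Fin N) (Fin n) ℝ} (hJ : ∀ a i, ContDiffOn ℝ ∞ (fun x => J x a i) S)
    (h : ∀ x ∈ S, Function.Injective (J x).mulVec) (i : Fin n) (a : Fin N) :
    ContDiffOn ℝ ∞ (fun x => linv (J x) i a) S := by
  have hK : ∀ i j, ContDiffOn ℝ ∞ (fun x => ((J x)ᵀ * J x) i j) S := fun i j => by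
    simp only [Matrix.mul_apply, Matrix.transpose_apply]
    exact ContDiffOn.sum fun a _ => (hJ a i).mul (hJ a j)
  have hdet : ∀ {A : X → Matrix (Fin n) (Fin n) ℝ},
      (∀ i j, ContDiffOn ℝ ∞ (fun x => A x i j) S) → ContDiffOn ℝ ∞ (fun x => (A x).det) S := by
    intro A hA
    simp only [Matrix.det_apply]
    refine ContDiffOn.sum fun σ _ => ?_
    have : ContDiffOn ℝ ∞ (fun x => ∏ i, A x (σ i) i) S := contDiffOn_prod fun i _ => hA _ _
    exact this.const_smul _
  have hi : ∀ i j, ContDiffOn ℝ ∞ (fun x => ((J x)ᵀ * J x)⁻¹ i j) S := by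
    intro i j
    have hadj : ContDiffOn ℝ ∞ (fun x => ((J x)ᵀ * J x).adjugate i j) S := by
      simp only [Matrix.adjugate_apply]
      refine hdet fun a b => ?_
      by_cases h : a = j
      · subst h
        simp only [Matrix.updateRow_self]
        exact contDiffOn_const
      · simp only [Matrix.updateRow_ne h]
        exact hK _ _
    refine (((hdet hK).inv fun x hx => det_gram (h x hx)).mul hadj).congr fun x _ => ?_
    simp only [Matrix.inv_def, Ring.inverse_eq_inv', Matrix.smul_apply, smul_eq_mul]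
    rfl
  simp only [linv, Matrix.mul_apply (M := ((J _)ᵀ * J _)⁻¹), Matrix.transpose_apply]
  exact ContDiffOn.sum fun k _ => (hi i k).mul (hJ a k)

variable {n : ℕ} {M : Type*} [TopologicalSpace M] [ChartedSpace (En n) M]
  [IsManifold 𝓘(ℝ, En n) ∞ M]

/-- `D_{ai} = ∂ᵢ (trans x₀ x₁)^a` -/
abbrev dtr (n : ℕ) {M : Type*} [TopologicalSpace M] [ChartedSpace (En n) M] (x₀ x₁ : M)
    (y : En n) (a i : Fin n) : ℝ :=
  fderiv ℝ (Bo84.trans x₀ x₁) y (EuclideanSpace.single i 1) a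

/-- symmetric 2-tensors as a quotient and as a subbundle of `M × V` -/
structure Emb (n : ℕ) (M : Type*) [TopologicalSpace M] [ChartedSpace (En n) M] (V : Type)
    [NormedAddCommGroup V] [NormedSpace ℝ V] where
  c : M → En n → Fin n → Fin n → V →L[ℝ] ℝ
  e : M → En n → Fin n → Fin n → V
  sc : ∀ x i j, ContDiffOn ℝ ∞ (fun y => c x y i j) (tg n x)
  se : ∀ x i j, ContDiffOn ℝ ∞ (fun y => e x y i j) (tg n x)
  symm : ∀ x y i j v, c x y i j v = c x y j i v
  dual : ∀ x, ∀ y ∈ tg n x, ∀ S : Fin n → Fin n → ℝ, (∀ i j, S i j = S j i) → ∀ i j,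
    c x y i j (∑ k, ∑ l, S k l • e x y k l) = S i j
  trc : ∀ x₀ x₁, ∀ y ∈ Bo84.tdom (n := n) x₀ x₁, ∀ v i j, c x₀ y i j v =
    ∑ a, ∑ b, c x₁ (Bo84.trans x₀ x₁ y) a b v * dtr n x₀ x₁ y a i * dtr n x₀ x₁ y b j
  tre : ∀ x₀ x₁, ∀ y ∈ Bo84.tdom (n := n) x₀ x₁, ∀ S S' : Fin n → Fin n → ℝ,
    (∀ i j, S' i j = ∑ a, ∑ b, S a b * dtr n x₀ x₁ y a i * dtr n x₀ x₁ y b j) →
    ∑ i, ∑ j, S' i j • e x₀ y i j = ∑ a, ∑ b, S a b • e x₁ (Bo84.trans x₀ x₁ y) a b

/-- coordinate functional -/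
def prj2 {N : ℕ} (a b : Fin N) : (Fin N → Fin N → ℝ) →L[ℝ] ℝ :=
  (ContinuousLinearMap.proj (R := ℝ) (φ := fun _ : Fin N => ℝ) b).comp
    (ContinuousLinearMap.proj (R := ℝ) (φ := fun _ : Fin N => Fin N → ℝ) a)

/-- restriction functional -/
def cOf {N : ℕ} (J : Matrix (Fin N) (Fin n) ℝ) (i j : Fin n) : (Fin N → Fin N → ℝ) →L[ℝ] ℝ :=
  ∑ a, ∑ b, ((1 / 2) * (J a i * J b j + J a j * J b i)) • prj2 a b

theorem cOf_apply {N : ℕ} (J : Matrix (Fin N) (Fin n) ℝ) (i j : Fin n) (v : Fin N → Fin N → ℝ) :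
    cOf J i j v = (1 / 2) * ((Jᵀ * Matrix.of v * J) i j + (Jᵀ * Matrix.of v * J) j i) := by
  simp only [cOf, conj_apply, _root_.sum_apply, _root_.smul_apply, smul_eq_mul,
    ← Finset.sum_add_distrib, Finset.mul_sum, Matrix.of_apply]
  refine Finset.sum_congr rfl fun a _ => Finset.sum_congr rfl fun b _ => ?_
  have : prj2 a b v = v a b := rfl
  rw [this]
  ring

theorem of_sum_e {N : ℕ} (Q : Matrix (Fin n) (Fin N) ℝ) (S : Fin n → Fin n → ℝ) :
    Matrix.of (∑ k, ∑ l, S k l • (fun a b => Q k a * Q l b : Fin N → Fin N → ℝ)) =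
      Qᵀ * Matrix.of S * Q := by
  ext a b
  simp only [conj_apply, Matrix.of_apply, Finset.sum_apply, Pi.smul_apply, smul_eq_mul, mul_assoc]

theorem exists_emb [T2Space M] [CompactSpace M] :
    ∃ N : ℕ, Nonempty (Emb n M (Fin N → Fin N → ℝ)) := by
  obtain ⟨N, ι, hι, -, hinj⟩ := exists_embedding_euclidean_of_compact (I := 𝓘(ℝ, En n)) (M := M)
  let f : M → En n → En N := fun x y => ι ((chartAt (En n) x).symm y)
  let J : M → En n → Matrix (Fin N) (Fin n) ℝ := fun x y => jac (fderiv ℝ (f x) y)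
  have hf : ∀ x, ContDiffOn ℝ ∞ (f x) (tg n x) := fun x =>
    contMDiffOn_iff_contDiffOn.1 (hι.comp_contMDiffOn contMDiffOn_chart_symm)
  have hJ : ∀ x a i, ContDiffOn ℝ ∞ (fun y => J x y a i) (tg n x) := fun x a i =>
    (EuclideanSpace.proj a : En N →L[ℝ] ℝ).contDiff.comp_contDiffOn
      (((hf x).fderiv_of_isOpen (chartAt (En n) x).open_target (by simp)).clm_apply
        contDiffOn_const)
  have hi : ∀ x, ∀ y ∈ tg n x, Function.Injective (J x y).mulVec := by
    intro x y hy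
    refine jac_inj ?_
    have h1 : MDifferentiableAt 𝓘(ℝ, En n) 𝓘(ℝ, En n) (chartAt (En n) x).symm y :=
      (mdifferentiable_chart (I := 𝓘(ℝ, En n)) x).mdifferentiableAt_symm hy
    have h2 := mfderiv_comp y ((hι _).mdifferentiableAt (by simp)) h1
    rw [mfderiv_eq_fderiv] at h2
    have h3 : fderiv ℝ (f x) y = _ := h2
    rw [h3]
    exact (hinj _).comp (Bo84.dSy_injective hy)
  have htr : ∀ x₀ x₁ : M, ∀ y ∈ Bo84.tdom (n := n) x₀ x₁,
      J x₀ y = J x₁ (Bo84.trans x₀ x₁ y) * jac (fderiv ℝ (Bo84.trans x₀ x₁) y) := by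
    intro x₀ x₁ y hy
    have h1 : f x₀ =ᶠ[𝓝 y] f x₁ ∘ Bo84.trans x₀ x₁ := by
      filter_upwards [(Bo84.isOpen_tdom x₀ x₁).mem_nhds hy] with z hz
      exact congrArg ι (Bo84.symm_trans hz).symm
    have h2 := fderiv_comp y (((hf x₁).contDiffAt ((chartAt (En n) x₁).open_target.mem_nhds
      (Bo84.trans_mem hy))).differentiableAt (by simp)) (((Bo84.contDiffOn_trans x₀ x₁).contDiffAt
        ((Bo84.isOpen_tdom x₀ x₁).mem_nhds hy)).differentiableAt (by simp))
    rw [← jac_comp, ← h2, ← h1.fderiv_eq]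
  have hD : ∀ x₀ x₁ : M, ∀ y ∈ Bo84.tdom (n := n) x₀ x₁,
      Function.Injective (jac (fderiv ℝ (Bo84.trans (n := n) x₀ x₁) y)).mulVec := by
    intro x₀ x₁ y hy
    refine jac_inj fun u v h => Bo84.dSy_injective hy.1 ?_
    rw [← Bo84.dSy_trans hy, ← Bo84.dSy_trans hy, h]
  refine ⟨N, ⟨⟨fun x y i j => cOf (J x y) i j,
    fun x y i j a b => linv (J x y) i a * linv (J x y) j b, ?_, ?_, ?_, ?_, ?_, ?_⟩⟩⟩
  · intro x i j
    refine ContDiffOn.sum fun a _ => ContDiffOn.sum fun b _ => ContDiffOn.smul_const ?_ _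
    exact contDiffOn_const.mul (((hJ x a i).mul (hJ x b j)).add ((hJ x a j).mul (hJ x b i)))
  · intro x i j
    exact contDiffOn_pi.2 fun a => contDiffOn_pi.2 fun b =>
      (sm_linv (hJ x) (hi x) i a).mul (sm_linv (hJ x) (hi x) j b)
  · intro x y i j v
    rw [cOf_apply, cOf_apply, add_comm]
  · intro x y hy S hS i j
    have h1 : (J x y)ᵀ * ((linv (J x y))ᵀ * Matrix.of S * linv (J x y)) * J x y = Matrix.of S := by
      have h2 := linv_mul (hi x y hy)
      have h3 : (J x y)ᵀ * (linv (J x y))ᵀ = 1 := by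
        rw [← Matrix.transpose_mul, h2, Matrix.transpose_one]
      rw [Matrix.mul_assoc, Matrix.mul_assoc, Matrix.mul_assoc, h2, Matrix.mul_one,
        ← Matrix.mul_assoc, h3, Matrix.one_mul]
    rw [cOf_apply, of_sum_e, h1, Matrix.of_apply, Matrix.of_apply, hS j i]
    ring
  · intro x₀ x₁ y hy v i j
    set D := jac (fderiv ℝ (Bo84.trans (n := n) x₀ x₁) y) with hDdef
    set J1 := J x₁ (Bo84.trans x₀ x₁ y)
    have h1 : (J1 * D)ᵀ * Matrix.of v * (J1 * D) = Dᵀ * (J1ᵀ * Matrix.of v * J1) * D := by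
      simp only [Matrix.transpose_mul, Matrix.mul_assoc]
    simp only [cOf_apply]
    rw [htr x₀ x₁ y hy, h1, conj_apply, conj_apply, Finset.sum_comm (f := fun a b =>
      (J1ᵀ * Matrix.of v * J1) a b * D a j * D b i), ← Finset.sum_add_distrib, Finset.mul_sum]
    refine Finset.sum_congr rfl fun a _ => ?_
    rw [← Finset.sum_add_distrib, Finset.mul_sum]
    refine Finset.sum_congr rfl fun b _ => ?_
    change _ = _ * D a i * D b j
    ring
  · intro x₀ x₁ y hy S S' hS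
    set D := jac (fderiv ℝ (Bo84.trans (n := n) x₀ x₁) y) with hDdef
    have h1 : Matrix.of S' = Dᵀ * Matrix.of S * D := by
      ext i j
      rw [conj_apply]
      exact hS i j
    refine Matrix.of.injective ?_
    rw [of_sum_e, of_sum_e, h1, ← mul_linv_mul (J x₁ (Bo84.trans x₀ x₁ y)) (hD x₀ x₁ y hy),
      htr x₀ x₁ y hy]
    simp only [Matrix.transpose_mul, Matrix.mul_assoc]
    rfl

end Crest.Agent.N207.B

end
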