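import Crest.Agent.R080.Seeley

/-!
# Row 207, block B FLOW, part 4 (helper69): extension in time

`ext τ f` extends `f : ℝ × V → F`, smooth on `[0, τ] × U`, to a smooth function on `ℝ × U` which
agrees with `f` on `[0, τ/2] × V`. The extension is pointwise in the space variable and commutes with
linear maps (`ext_map`).
-/

set_option autoImplicit false

open Set Filter Topology
open scoped ContDiff

noncomputable section

namespace Crest.Agent.N207.B.Fl

open Crest.Agent.R080.Seeley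

variable {V F : Type*} [NormedAddCommGroup V] [NormedSpace ℝ V]
  [NormedAddCommGroup F] [NormedSpace ℝ F]

/-- Seeley's theorem with the explicit operator -/
theorem contDiff_FF' [CompleteSpace F] [FiniteDimensional ℝ V] {l : V →L[ℝ] ℝ} {e : V}
    (he : l e = 1) {f : V → F}
    (hf : ContDiffOn ℝ ∞ f {x | l x ≤ 0}) (R : ℝ) (hR : ∀ x, l x ≤ 0 → R < ‖x‖ → f x = 0) :
    ContDiff ℝ ∞ (FF l e f) := by
  set s : Set V := {x | l x ≤ 0} with hs
  have hconv : Convex ℝ s := by
    exact (convex_Iic (0 : ℝ)).is_linear_preimage l.toLinearMap.isLinear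
  have hint : (interior s).Nonempty := by
    refine ⟨-e, ?_⟩
    refine mem_interior.2 ⟨{x | l x < 0}, fun y (hy : l y < 0) => (hy.le : l y ≤ 0),
      isOpen_lt l.continuous continuous_const, ?_⟩
    show l (-e) < 0
    rw [map_neg, he]; norm_num
  have hu : UniqueDiffOn ℝ s := uniqueDiffOn_convex hconv hint
  have hp : HasFTaylorSeriesUpToOn ∞ f (ftaylorSeriesWithin ℝ f s) s := hf.ftaylorSeriesWithin hu
  have hclosed : IsClosed s := isClosed_le l.continuous continuous_const
  refine contDiff_FF he hp ?_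
  intro n
  have hK : IsCompact (s ∩ Metric.closedBall (0 : V) R) :=
    (isCompact_closedBall (0 : V) R).inter_left hclosed
  obtain ⟨C, hC⟩ := hK.exists_bound_of_continuousOn
    (f := fun x => ftaylorSeriesWithin ℝ f s x n)
    ((hp.cont n (by exact_mod_cast le_top)).mono Set.inter_subset_left)
  refine ⟨max C 0, fun x hx => ?_⟩
  by_cases hxR : ‖x‖ ≤ R
  · exact (hC x ⟨hx, by simpa using hxR⟩).trans (le_max_left _ _)
  · have h1 : f =ᶠ[𝓝[s] x] fun _ => 0 := by
      have h2 : {y : V | R < ‖y‖} ∈ 𝓝 x := (isOpen_lt continuous_const continuous_norm).mem_nhds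
        (not_le.1 hxR)
      filter_upwards [nhdsWithin_le_nhds h2, self_mem_nhdsWithin] with y hy hy'
      exact hR y hy' hy
    have h3 : ftaylorSeriesWithin ℝ f s x n = 0 := by
      have h4 := (Filter.EventuallyEq.iteratedFDerivWithin_eq (𝕜 := ℝ) h1
        (hR x hx (not_le.1 hxR)) n)
      rw [ftaylorSeriesWithin, h4]
      simp
    rw [h3, norm_zero]
    exact le_max_right _ _

/-- cutoff in time: `1` for `t ≤ τ/2`, `0` for `t ≥ 3τ/4` -/
def chi (τ t : ℝ) : ℝ := Real.smoothTransition (3 - 4 * t / τ)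

theorem contDiff_chi (τ : ℝ) : ContDiff ℝ ∞ (chi τ) := by
  unfold chi
  exact Real.smoothTransition.contDiff.comp (by fun_prop)

theorem chi_one {τ t : ℝ} (hτ : 0 < τ) (ht : t ≤ τ / 2) : chi τ t = 1 := by
  refine Real.smoothTransition.one_of_one_le ?_
  have : 4 * t / τ ≤ 2 := by rw [div_le_iff₀ hτ]; linarith
  linarith

theorem chi_zero {τ t : ℝ} (hτ : 0 < τ) (ht : 3 * τ / 4 ≤ t) : chi τ t = 0 := by
  refine Real.smoothTransition.zero_of_nonpos ?_
  have : 3 ≤ 4 * t / τ := by rw [le_div_iff₀ hτ]; linarith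
  linarith

variable (V) in
/-- `l (t, y) = -t` -/
def lT : ℝ × V →L[ℝ] ℝ := -ContinuousLinearMap.fst ℝ ℝ V

theorem lT_apply (p : ℝ × V) : lT V p = -p.1 := rfl

theorem lT_e : lT V ((-1 : ℝ), (0 : V)) = 1 := by simp [lT_apply]

theorem Ak_lT (k : ℕ) (p : ℝ × V) :
    Ak (lT V) ((-1 : ℝ), (0 : V)) k p = (-(2 : ℝ) ^ k * p.1, p.2) := by
  rw [Ak_apply, lT_apply]
  refine Prod.ext ?_ ?_
  · simp
  · simp

/-- extension in time -/
def ext (τ : ℝ) (f : ℝ × V → F) : ℝ × V → F :=
  FF (lT V) ((-1 : ℝ), (0 : V)) fun q => chi τ q.1 • f q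

theorem ext_of_nonneg (τ : ℝ) (f : ℝ × V → F) {t : ℝ} (ht : 0 ≤ t) (y : V) :
    ext τ f (t, y) = chi τ t • f (t, y) := by
  have h : lT V (t, y) ≤ 0 := by rw [lT_apply]; linarith
  simp only [ext, FF, if_pos h]

theorem ext_of_neg (τ : ℝ) (f : ℝ × V → F) {t : ℝ} (ht : t < 0) (y : V) :
    ext τ f (t, y) = ∑' k, cc k • (chi τ (-(2 : ℝ) ^ k * t) • f (-(2 : ℝ) ^ k * t, y)) := by
  have h : ¬ lT V (t, y) ≤ 0 := by rw [lT_apply]; simp only [not_le]; linarith
  simp only [ext, FF, if_neg h, Ak_lT]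

theorem ext_eq {τ : ℝ} (hτ : 0 < τ) (f : ℝ × V → F) {t : ℝ} (ht : t ∈ Icc 0 (τ / 2)) (y : V) :
    ext τ f (t, y) = f (t, y) := by
  rw [ext_of_nonneg τ f ht.1, chi_one hτ ht.2, one_smul]

theorem summable_ext {τ : ℝ} (hτ : 0 < τ) (f : ℝ × V → F) {t : ℝ} (ht : t < 0) (y : V) :
    Summable fun k => cc k • (chi τ (-(2 : ℝ) ^ k * t) • f (-(2 : ℝ) ^ k * t, y)) := by
  obtain ⟨N, hN⟩ := pow_unbounded_of_one_lt (τ / (-t)) (by norm_num : (1 : ℝ) < 2)
  refine summable_of_ne_finset_zero (s := Finset.range N) fun k hk => ?_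
  have h1 : (2 : ℝ) ^ N ≤ 2 ^ k := pow_le_pow_right₀ (by norm_num) (by simpa using hk)
  have h2 : τ < 2 ^ N * (-t) := by rwa [div_lt_iff₀ (by linarith)] at hN
  rw [chi_zero hτ (by nlinarith), zero_smul, smul_zero]

/-- the extension is pointwise in space and commutes with linear maps -/
theorem ext_map {V' F' : Type*} [NormedAddCommGroup V'] [NormedSpace ℝ V']
    [NormedAddCommGroup F'] [NormedSpace ℝ F'] {τ : ℝ} (hτ : 0 < τ) {f : ℝ × V → F}
    {f' : ℝ × V' → F'} {y : V} {y' : V'} (L : F →L[ℝ] F')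
    (h : ∀ t ∈ Icc 0 τ, f' (t, y') = L (f (t, y))) (t : ℝ) :
    ext τ f' (t, y') = L (ext τ f (t, y)) := by
  have key : ∀ r, 0 ≤ r → chi τ r • f' (r, y') = L (chi τ r • f (r, y)) := by
    intro r hr
    rw [map_smul]
    by_cases h1 : r ≤ τ
    · rw [h r ⟨hr, h1⟩]
    · rw [chi_zero hτ (by linarith [not_le.1 h1]), zero_smul, zero_smul]
  rcases le_or_gt 0 t with ht | ht
  · rw [ext_of_nonneg τ f ht, ext_of_nonneg τ f' ht, key t ht]
  · rw [ext_of_neg τ f ht, ext_of_neg τ f' ht, L.map_tsum (summable_ext hτ f ht y)]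
    refine tsum_congr fun k => ?_
    rw [map_smul, key]
    have : (0 : ℝ) < 2 ^ k := by positivity
    nlinarith

/-- the extension is smooth -/
theorem contDiffOn_ext [CompleteSpace F] [FiniteDimensional ℝ V] {τ : ℝ} (hτ : 0 < τ)
    {f : ℝ × V → F} {U : Set V} (hU : IsOpen U) (hf : ContDiffOn ℝ ∞ f (Icc 0 τ ×ˢ U)) :
    ContDiffOn ℝ ∞ (ext τ f) (univ ×ˢ U) := by
  rintro ⟨t₀, y₀⟩ ⟨-, hy₀⟩
  obtain ⟨r, hr, hrU⟩ := Metric.nhds_basis_closedBall.mem_iff.1 (hU.mem_nhds hy₀)
  let β : ContDiffBump y₀ := ⟨r / 2, r, by positivity, by linarith⟩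
  have hβ0 : ∀ y, r ≤ dist y y₀ → β y = 0 := fun y hy => β.zero_of_le_dist hy
  have h1 : ContDiff ℝ ∞ (ext τ fun q : ℝ × V => β q.2 • f q) := by
    refine contDiff_FF' lT_e ?_ (τ + ‖y₀‖ + r) ?_
    · rintro ⟨t, y⟩ hq
      have ht : 0 ≤ t := by
        have : lT V (t, y) ≤ 0 := hq
        rw [lT_apply] at this
        linarith
      by_cases hc : t < τ ∧ y ∈ U
      · have h2 : ContDiffWithinAt ℝ ∞ f {x | lT V x ≤ 0} (t, y) := by
          refine (hf (t, y) ⟨⟨ht, hc.1.le⟩, hc.2⟩).mono_of_mem_nhdsWithin ?_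
          have h3 : {q : ℝ × V | q.1 < τ ∧ q.2 ∈ U} ∈ 𝓝 (t, y) :=
            ((isOpen_lt continuous_fst continuous_const).inter
              (hU.preimage continuous_snd)).mem_nhds hc
          filter_upwards [nhdsWithin_le_nhds h3, self_mem_nhdsWithin] with q h4 h5
          have h6 : lT V q ≤ 0 := h5
          rw [lT_apply] at h6
          exact ⟨⟨by linarith, h4.1.le⟩, h4.2⟩
        have h7 : ContDiff ℝ ∞ fun q : ℝ × V => chi τ q.1 := (contDiff_chi τ).comp contDiff_fst
        have h8 : ContDiff ℝ ∞ fun q : ℝ × V => β q.2 := β.contDiff.comp contDiff_snd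
        exact h7.contDiffAt.contDiffWithinAt.smul (h8.contDiffAt.contDiffWithinAt.smul h2)
      · have h2 : (fun q : ℝ × V => chi τ q.1 • β q.2 • f q) =ᶠ[𝓝 (t, y)] fun _ => 0 := by
          rcases not_and_or.1 hc with h3 | h3
          · have h4 : {q : ℝ × V | 3 * τ / 4 < q.1} ∈ 𝓝 (t, y) :=
              (isOpen_lt continuous_const continuous_fst).mem_nhds
                (show 3 * τ / 4 < t by linarith [not_lt.1 h3])
            filter_upwards [h4] with q hq
            rw [chi_zero hτ (le_of_lt hq), zero_smul]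
          · have h5 : r < dist y y₀ := by
              by_contra h6
              exact h3 (hrU (Metric.mem_closedBall.2 (not_lt.1 h6)))
            have h4 : {q : ℝ × V | r < dist q.2 y₀} ∈ 𝓝 (t, y) :=
              (isOpen_lt continuous_const (continuous_snd.dist continuous_const)).mem_nhds h5
            filter_upwards [h4] with q hq
            rw [hβ0 _ (le_of_lt hq), zero_smul, smul_zero]
        exact (contDiffAt_const.congr_of_eventuallyEq h2).contDiffWithinAt
    · rintro ⟨t, y⟩ hq hR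
      have ht : 0 ≤ t := by
        rw [lT_apply] at hq
        linarith
      rw [Prod.norm_def, lt_max_iff] at hR
      rcases hR with hR | hR
      · have h2 : 3 * τ / 4 ≤ t := by
          simp only [Real.norm_of_nonneg ht] at hR
          linarith [norm_nonneg y₀]
        show chi τ t • β y • f (t, y) = 0
        rw [chi_zero hτ h2, zero_smul]
      · have h2 : r ≤ dist y y₀ := by
          rw [dist_eq_norm]
          have := norm_sub_norm_le y y₀
          simp only at hR
          linarith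
        show chi τ t • β y • f (t, y) = 0
        rw [hβ0 y h2, zero_smul, smul_zero]
  refine (h1.contDiffAt.congr_of_eventuallyEq ?_).contDiffWithinAt
  have h2 : {q : ℝ × V | dist q.2 y₀ < r / 2} ∈ 𝓝 (t₀, y₀) :=
    (isOpen_lt (continuous_snd.dist continuous_const) continuous_const).mem_nhds
      (show dist y₀ y₀ < r / 2 by rw [dist_self]; positivity)
  filter_upwards [h2] with q hq
  have h3 : β q.2 = 1 := β.one_of_mem_closedBall (Metric.mem_closedBall.2 (le_of_lt hq))
  have h4 := ext_map (f := f) (f' := fun q : ℝ × V => β q.2 • f q) (y := q.2) (y' := q.2) hτ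
    (ContinuousLinearMap.id ℝ F) (fun t _ => by simp [h3]) q.1
  exact h4.symm

end Crest.Agent.N207.B.Fl

end
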