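import Crest.Agent.N207.B.Flow3
import Crest.Agent.N207.B.Flow4
import Crest.Agent.N207.Defs

/-!
# Row 207, block B FLOW, part 5 (helper69): the flow of a time dependent vector field on a compact
manifold

* `VCompat b J`: the chart components `b x (t, y)` transform as a vector field for `t ∈ J`
* `IsFlow b s φ ψ`: `φ t` is the flow of `b` on `[0, s]`, `ψ t` its inverse, all smooth on `ℝ × M`
* `exists_flow`, and `exists_flowW` for `W t p : TangentSpace`
-/

set_option autoImplicit false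
set_option linter.unusedSectionVars false

open Set Filter Topology
open scoped ContDiff Manifold
open Crest.Agent.R247

noncomputable section

namespace Crest.Agent.N207.B

open Fl

universe u

variable {n : ℕ} {M : Type u} [TopologicalSpace M] [ChartedSpace (En n) M]
  [IsManifold 𝓘(ℝ, En n) ∞ M]

/-- a family of maps read in the charts at `x` (source) and `z` (target) -/
def rdC (n : ℕ) {M : Type u} [TopologicalSpace M] [ChartedSpace (En n) M] (φ : ℝ → M → M)
    (x z : M) (p : ℝ × En n) : En n :=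
  chartAt (En n) z (φ p.1 ((chartAt (En n) x).symm p.2))

/-- the chart components transform as a vector field -/
def VCompat (b : M → ℝ × En n → En n) (J : Set ℝ) : Prop :=
  ∀ x₀ x₁ : M, ∀ t ∈ J, ∀ y ∈ Bo84.tdom (n := n) x₀ x₁,
    b x₁ (t, Bo84.trans x₀ x₁ y) = fderiv ℝ (Bo84.trans x₀ x₁) y (b x₀ (t, y))

/-- a family of maps, continuous on `ℝ × M` and jointly smooth in charts -/
structure SmMaps (n : ℕ) {M : Type u} [TopologicalSpace M] [ChartedSpace (En n) M]
    (φ : ℝ → M → M) : Prop where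
  cont : Continuous fun p : ℝ × M => φ p.1 p.2
  sm : ∀ t x z, ∀ y ∈ tg n x, φ t ((chartAt (En n) x).symm y) ∈ (chartAt (En n) z).source →
    ContDiffAt ℝ ∞ (rdC n φ x z) (t, y)

/-- `φ t` is the flow of `b` on `[0, s]` and `ψ t` is the inverse of `φ t` -/
structure IsFlow (b : M → ℝ × En n → En n) (s : ℝ) (φ ψ : ℝ → M → M) : Prop where
  zero : ∀ x, φ 0 x = x
  left_inv : ∀ t x, ψ t (φ t x) = x
  right_inv : ∀ t x, φ t (ψ t x) = x
  sm : SmMaps n φ
  sm_inv : SmMaps n ψ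
  ode : ∀ t ∈ Icc 0 s, ∀ x z, φ t x ∈ (chartAt (En n) z).source →
    HasDerivAt (fun r => chartAt (En n) z (φ r x)) (b z (t, chartAt (En n) z (φ t x))) t

namespace SmMaps

variable {φ : ℝ → M → M}

theorem cont_t (h : SmMaps n φ) (t : ℝ) : Continuous (φ t) :=
  h.cont.comp (by fun_prop : Continuous fun x : M => (t, x))

theorem cont_x (h : SmMaps n φ) (x : M) : Continuous fun t => φ t x :=
  h.cont.comp (by fun_prop : Continuous fun t : ℝ => (t, x))

/-- the set where the reading in the charts makes sense is open -/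
theorem isOpen_dom (h : SmMaps n φ) (x z : M) : IsOpen {p : ℝ × En n | p.2 ∈ tg n x ∧
    φ p.1 ((chartAt (En n) x).symm p.2) ∈ (chartAt (En n) z).source} := by
  have h1 : ContinuousOn (fun p : ℝ × En n => φ p.1 ((chartAt (En n) x).symm p.2))
      (Prod.snd ⁻¹' tg n x) := by
    refine h.cont.comp_continuousOn (f := fun p : ℝ × En n => (p.1, (chartAt (En n) x).symm p.2))
      (continuousOn_fst.prodMk ?_)
    exact (chartAt (En n) x).continuousOn_symm.comp continuousOn_snd fun p hp => hp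
  exact h1.isOpen_inter_preimage ((chartAt (En n) x).open_target.preimage continuous_snd)
    (chartAt (En n) z).open_source

theorem contDiffOn (h : SmMaps n φ) (x z : M) : ContDiffOn ℝ ∞ (rdC n φ x z)
    {p : ℝ × En n | p.2 ∈ tg n x ∧
      φ p.1 ((chartAt (En n) x).symm p.2) ∈ (chartAt (En n) z).source} :=
  fun p hp => (h.sm p.1 x z p.2 hp.1 hp.2).contDiffWithinAt

theorem sm_t (h : SmMaps n φ) {t : ℝ} {x z : M} {y : En n} (hy : y ∈ tg n x)
    (hz : φ t ((chartAt (En n) x).symm y) ∈ (chartAt (En n) z).source) :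
    ContDiffAt ℝ ∞ (fun w => rdC n φ x z (t, w)) y :=
  ContDiffAt.comp (g := rdC n φ x z) (f := fun w : En n => (t, w)) y (h.sm t x z y hy hz)
    (by fun_prop)

/-- joint smoothness on `ℝ × M` -/
theorem contMDiff (h : SmMaps n φ) :
    ContMDiff (𝓘(ℝ, ℝ).prod 𝓘(ℝ, En n)) 𝓘(ℝ, En n) ∞ fun p : ℝ × M => φ p.1 p.2 := by
  rintro ⟨t, x⟩
  have hx := mem_chart_source (En n) x
  have hz := mem_chart_source (En n) (φ t x)
  have h1 : ContDiffAt ℝ ∞ (rdC n φ x (φ t x)) (t, chartAt (En n) x x) :=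
    h.sm t x _ _ ((chartAt (En n) x).map_source hx) (by rwa [(chartAt (En n) x).left_inv hx])
  have h2 : ContMDiffAt (𝓘(ℝ, ℝ).prod 𝓘(ℝ, En n)) 𝓘(ℝ, ℝ × En n) ∞
      (fun p : ℝ × M => (p.1, chartAt (En n) x p.2)) (t, x) := by
    refine contMDiffAt_fst.prodMk_space ?_
    exact ContMDiffAt.comp (g := chartAt (En n) x) (f := fun p : ℝ × M => p.2) (t, x)
      (contMDiffOn_chart.contMDiffAt ((chartAt (En n) x).open_source.mem_nhds hx)) contMDiffAt_snd
  have h3 : ContMDiffAt (𝓘(ℝ, ℝ).prod 𝓘(ℝ, En n)) 𝓘(ℝ, En n) ∞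
      (fun p : ℝ × M => rdC n φ x (φ t x) (p.1, chartAt (En n) x p.2)) (t, x) :=
    ContMDiffAt.comp (g := rdC n φ x (φ t x)) (t, x) h1.contMDiffAt h2
  have h4 : rdC n φ x (φ t x) (t, chartAt (En n) x x) = chartAt (En n) (φ t x) (φ t x) := by
    simp only [rdC, (chartAt (En n) x).left_inv hx]
  have h5 : ContMDiffAt (𝓘(ℝ, ℝ).prod 𝓘(ℝ, En n)) 𝓘(ℝ, En n) ∞
      (fun p : ℝ × M => (chartAt (En n) (φ t x)).symm
        (rdC n φ x (φ t x) (p.1, chartAt (En n) x p.2))) (t, x) := by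
    refine ContMDiffAt.comp (g := (chartAt (En n) (φ t x)).symm) (t, x) ?_ h3
    refine contMDiffOn_chart_symm.contMDiffAt ((chartAt (En n) (φ t x)).open_target.mem_nhds ?_)
    show rdC n φ x (φ t x) (t, chartAt (En n) x x) ∈ _
    rw [h4]
    exact (chartAt (En n) (φ t x)).map_source hz
  refine h5.congr_of_eventuallyEq ?_
  have e1 : ∀ᶠ p : ℝ × M in 𝓝 (t, x), p.2 ∈ (chartAt (En n) x).source :=
    continuousAt_snd.eventually ((chartAt (En n) x).open_source.mem_nhds hx)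
  have e2 : ∀ᶠ p : ℝ × M in 𝓝 (t, x), φ p.1 p.2 ∈ (chartAt (En n) (φ t x)).source :=
    h.cont.continuousAt.eventually ((chartAt (En n) (φ t x)).open_source.mem_nhds hz)
  filter_upwards [e1, e2] with p h6 h7
  simp only [rdC, (chartAt (En n) x).left_inv h6, (chartAt (En n) (φ t x)).left_inv h7]

theorem contMDiff_t (h : SmMaps n φ) (t : ℝ) : ContMDiff 𝓘(ℝ, En n) 𝓘(ℝ, En n) ∞ (φ t) :=
  h.contMDiff.comp (f := fun x : M => (t, x)) (contMDiff_const.prodMk contMDiff_id)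

end SmMaps

namespace IsFlow

variable {b : M → ℝ × En n → En n} {s : ℝ} {φ ψ : ℝ → M → M}

theorem contMDiff (h : IsFlow b s φ ψ) (t : ℝ) : ContMDiff 𝓘(ℝ, En n) 𝓘(ℝ, En n) ∞ (φ t) :=
  h.sm.contMDiff_t t

theorem contMDiff_inv (h : IsFlow b s φ ψ) (t : ℝ) : ContMDiff 𝓘(ℝ, En n) 𝓘(ℝ, En n) ∞ (ψ t) :=
  h.sm_inv.contMDiff_t t

/-- the diffeomorphism `φ t` -/
def diffeo (h : IsFlow b s φ ψ) (t : ℝ) : Diffeomorph 𝓘(ℝ, En n) 𝓘(ℝ, En n) M M ∞ where
  toFun := φ t
  invFun := ψ t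
  left_inv := h.left_inv t
  right_inv := h.right_inv t
  contMDiff_toFun := h.contMDiff t
  contMDiff_invFun := h.contMDiff_inv t

theorem mfderiv_inv (h : IsFlow b s φ ψ) (t : ℝ) (x : M) (v : TangentSpace 𝓘(ℝ, En n) x) :
    mfderiv 𝓘(ℝ, En n) 𝓘(ℝ, En n) (ψ t) (φ t x) (mfderiv 𝓘(ℝ, En n) 𝓘(ℝ, En n) (φ t) x v) = v := by
  have h1 := mfderiv_comp x ((h.contMDiff_inv t (φ t x)).mdifferentiableAt (by simp))
    ((h.contMDiff t x).mdifferentiableAt (by simp))
  have h2 : ψ t ∘ φ t = id := funext (h.left_inv t)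
  rw [h2, mfderiv_id] at h1
  exact (congrArg (fun L : En n →L[ℝ] En n => L v) h1).symm

theorem inj (h : IsFlow b s φ ψ) (t : ℝ) (x : M) :
    Function.Injective (mfderiv 𝓘(ℝ, En n) 𝓘(ℝ, En n) (φ t) x) := by
  intro v w hvw
  rw [← h.mfderiv_inv t x v, ← h.mfderiv_inv t x w, hvw]

/-- the differential in charts is injective -/
theorem inj_rdC (h : IsFlow b s φ ψ) {t : ℝ} {x z : M} {y : En n} (hy : y ∈ tg n x)
    (hz : φ t ((chartAt (En n) x).symm y) ∈ (chartAt (En n) z).source) :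
    Function.Injective (fderiv ℝ (fun w => rdC n φ x z (t, w)) y) := by
  have hx := (chartAt (En n) x).map_target hy
  have h1 : ψ t ((chartAt (En n) z).symm (rdC n φ x z (t, y))) = (chartAt (En n) x).symm y := by
    simp only [rdC, (chartAt (En n) z).left_inv hz, h.left_inv]
  have h2 : ContDiffAt ℝ ∞ (fun w => rdC n ψ z x (t, w)) (rdC n φ x z (t, y)) :=
    h.sm_inv.sm_t ((chartAt (En n) z).map_source hz) (by rw [h1]; exact hx)
  have h3 := fderiv_comp y (h2.differentiableAt (by simp))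
    ((h.sm.sm_t hy hz).differentiableAt (by simp))
  have h4 : ((fun w => rdC n ψ z x (t, w)) ∘ fun w => rdC n φ x z (t, w)) =ᶠ[𝓝 y] id := by
    have e1 := ((h.sm.isOpen_dom x z).preimage
      (by fun_prop : Continuous fun w : En n => (t, w))).mem_nhds (x := y) ⟨hy, hz⟩
    filter_upwards [e1] with w hw
    simp only [rdC, Function.comp, (chartAt (En n) z).left_inv hw.2, h.left_inv, id,
      (chartAt (En n) x).right_inv hw.1]
  rw [h4.fderiv_eq, fderiv_id] at h3
  intro v w hvw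
  have h5 := congrArg (fun L : En n →L[ℝ] En n => L v) h3
  have h6 := congrArg (fun L : En n →L[ℝ] En n => L w) h3
  simp only [ContinuousLinearMap.id_apply, ContinuousLinearMap.comp_apply] at h5 h6
  rw [h5, h6, hvw]

/-- the equation, read in the charts at `x` and `z` -/
theorem ode_rdC (h : IsFlow b s φ ψ) {t : ℝ} (ht : t ∈ Icc 0 s) {x z : M} {y : En n}
    (hz : φ t ((chartAt (En n) x).symm y) ∈ (chartAt (En n) z).source) :
    HasDerivAt (fun r => rdC n φ x z (r, y)) (b z (t, rdC n φ x z (t, y))) t :=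
  h.ode t ht _ z hz

end IsFlow

variable (n M) in
/-- the preferred charts -/
abbrev rch : RCh (En n) M where
  ι := M
  e x := chartAt (En n) x
  cover x := ⟨x, mem_chart_source _ x⟩
  sm x₀ x₁ := Bo84.contDiffOn_trans x₀ x₁

/-- **the flow of a time dependent vector field given in charts** -/
theorem exists_flow [CompactSpace M] [T2Space M] {τ : ℝ} (hτ : 0 < τ)
    {b : M → ℝ × En n → En n} (hb : ∀ x, ContDiffOn ℝ ∞ (b x) (Icc 0 τ ×ˢ tg n x))
    (hc : VCompat b (Icc 0 τ)) : ∃ φ ψ : ℝ → M → M, IsFlow b (τ / 2) φ ψ := by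
  let B : TVF (rch n M) :=
    { b := fun x => ext τ (b x)
      sm := fun x => contDiffOn_ext hτ (chartAt (En n) x).open_target (hb x)
      tr := fun x₀ x₁ t y hy =>
        ext_map hτ (fderiv ℝ (Bo84.trans x₀ x₁) y) (fun r hr => hc x₀ x₁ r hr y hy) t }
  have key : ∀ (t : ℝ) (x z : M), ∀ y ∈ tg n x, ∀ s : ℝ,
      B.Fl s t ((chartAt (En n) x).symm y) ∈ (chartAt (En n) z).source →
      ContDiffAt ℝ ∞ (B.rd x z) (s, t, y) := by
    intro t x z y hy s hz
    have h1 := B.rd_contDiffAt (s := s) (t := t) (i := x) (j := z)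
      (x := (chartAt (En n) x).symm y) ((chartAt (En n) x).map_target hy) hz
    have h2 : ((rch n M).e x) ((chartAt (En n) x).symm y) = y := (chartAt (En n) x).right_inv hy
    rwa [h2] at h1
  refine ⟨fun t => B.Fl 0 t, fun t => B.Fl t 0, fun x => TVF.Fl_self 0 x,
    fun t x => TVF.Fl_inv 0 t x, fun t x => TVF.Fl_inv t 0 x, ⟨?_, ?_⟩, ⟨?_, ?_⟩, ?_⟩
  · exact B.Fl_continuous.comp (by fun_prop : Continuous fun p : ℝ × M => ((0 : ℝ), p.1, p.2))
  · intro t x z y hy hz
    exact ContDiffAt.comp (g := B.rd x z) (f := fun p : ℝ × En n => ((0 : ℝ), p.1, p.2)) (t, y)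
      (key t x z y hy 0 hz) (by fun_prop)
  · exact B.Fl_continuous.comp (by fun_prop : Continuous fun p : ℝ × M => (p.1, (0 : ℝ), p.2))
  · intro t x z y hy hz
    exact ContDiffAt.comp (g := B.rd x z) (f := fun p : ℝ × En n => (p.1, (0 : ℝ), p.2)) (t, y)
      (key 0 x z y hy t hz) (by fun_prop)
  · intro t ht x z hz
    have h1 := TVF.Fl_hasDerivAt (B := B) (s := 0) (t := t) (x := x) (i := z) hz
    rw [← ext_eq hτ (b z) ht]
    exact h1

/-- chart components of a time dependent tangent vector field -/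
def cmpW (W : ℝ → ∀ p : M, TangentSpace 𝓘(ℝ, En n) p) (x : M) (q : ℝ × En n) : En n :=
  Bo84.dCh x ((chartAt (En n) x).symm q.2) (W q.1 ((chartAt (En n) x).symm q.2))

theorem cmpW_chart (W : ℝ → ∀ p : M, TangentSpace 𝓘(ℝ, En n) p) (t : ℝ) {x p : M}
    (hp : p ∈ (chartAt (En n) x).source) :
    cmpW W x (t, chartAt (En n) x p) = Bo84.dCh x p (W t p) := by
  have h : ∀ q : M, q = p → Bo84.dCh x q (W t q) = Bo84.dCh x p (W t p) := by
    rintro q rfl
    rfl
  exact h _ ((chartAt (En n) x).left_inv hp)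

theorem vcompat_cmpW (W : ℝ → ∀ p : M, TangentSpace 𝓘(ℝ, En n) p) (J : Set ℝ) :
    VCompat (cmpW W) J := by
  intro x₀ x₁ t _ y hy
  rw [Bo84.fderiv_trans hy]
  have h1 : cmpW W x₁ (t, Bo84.trans x₀ x₁ y) = _ := cmpW_chart W t hy.2
  rw [h1]
  have h2 := Bo84.dSy_dCh x₀ ((chartAt (En n) x₀).map_target hy.1)
    (W t ((chartAt (En n) x₀).symm y))
  rw [(chartAt (En n) x₀).right_inv hy.1] at h2
  exact congrArg _ h2.symm

/-- the flow equation on the manifold -/
theorem IsFlow.hasMFDerivAt {W : ℝ → ∀ p : M, TangentSpace 𝓘(ℝ, En n) p} {s : ℝ}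
    {φ ψ : ℝ → M → M} (h : IsFlow (cmpW W) s φ ψ) {t : ℝ} (ht : t ∈ Icc 0 s) (x : M) :
    HasMFDerivAt 𝓘(ℝ, ℝ) 𝓘(ℝ, En n) (fun r => φ r x) t
      ((1 : ℝ →L[ℝ] ℝ).smulRight (W t (φ t x))) := by
  have hz := mem_chart_source (En n) (φ t x)
  have h1 := h.ode t ht x _ hz
  rw [cmpW_chart W t hz] at h1
  have h2 : HasMFDerivAt 𝓘(ℝ, En n) 𝓘(ℝ, En n) (chartAt (En n) (φ t x)).symm
      (chartAt (En n) (φ t x) (φ t x))
      (Bo84.dSy (φ t x) (chartAt (En n) (φ t x) (φ t x))) :=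
    ((mdifferentiable_chart (I := 𝓘(ℝ, En n)) (φ t x)).mdifferentiableAt_symm
      ((chartAt (En n) (φ t x)).map_source hz)).hasMFDerivAt
  have h3 := h2.comp t h1.hasFDerivAt.hasMFDerivAt
  have h4 : (fun r => φ r x) =ᶠ[𝓝 t]
      (chartAt (En n) (φ t x)).symm ∘ fun r => chartAt (En n) (φ t x) (φ r x) := by
    filter_upwards [(h.sm.cont_x x).continuousAt.eventually
      ((chartAt (En n) (φ t x)).open_source.mem_nhds hz)] with r hr
    exact ((chartAt (En n) (φ t x)).left_inv hr).symm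
  have h5 := h3.congr_of_eventuallyEq h4
  have h6 : (Bo84.dSy (φ t x) (chartAt (En n) (φ t x) (φ t x))).comp
      ((1 : ℝ →L[ℝ] ℝ).smulRight (Bo84.dCh (φ t x) (φ t x) (W t (φ t x)))) =
      ((1 : ℝ →L[ℝ] ℝ).smulRight (W t (φ t x)) : ℝ →L[ℝ] En n) := by
    ext1
    simp only [ContinuousLinearMap.comp_apply, ContinuousLinearMap.smulRight_apply,
      one_apply_eq_self, one_smul]
    exact Bo84.dSy_dCh _ hz _
  exact h5.congr_mfderiv h6

/-- **the flow of a time dependent tangent vector field** -/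
theorem exists_flowW [CompactSpace M] [T2Space M] {τ : ℝ} (hτ : 0 < τ)
    {W : ℝ → ∀ p : M, TangentSpace 𝓘(ℝ, En n) p}
    (hW : ∀ x, ContDiffOn ℝ ∞ (cmpW W x) (Icc 0 τ ×ˢ tg n x)) :
    ∃ φ ψ : ℝ → M → M, IsFlow (cmpW W) (τ / 2) φ ψ :=
  exists_flow hτ hW (vcompat_cmpW W _)

end Crest.Agent.N207.B

end
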