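import Crest.Agent.N207.A.Mk

/-!
# Row 207, block B PULLBACK, part 1 (helper69): pull-back of a metric by an immersion; Lie
derivative in coordinates and the derivative of a pull-back along a flow
-/

set_option autoImplicit false
set_option linter.unusedSectionVars false

open scoped ContDiff Manifold Topology
open Set Filter
open Crest.GeometryTopology.CoordMetric Crest.GeometryTopology.ChartCurvature
open Crest.Agent.R247 Crest.Agent.R202.Tens

noncomputable section

namespace Crest.Agent.N207.B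

variable {n : ℕ}

/-! ### coordinates -/

/-- Lie derivative `(L_b G)_{ij}` of a matrix field along a vector field -/
def lieG (b : En n → En n) (G : MetricField n) (y : En n) (i j : Fin n) : ℝ :=
  ∑ k, (b y k * pderiv k (fun z => G z i j) y + G y k j * pderiv i (fun z => b z k) y +
    G y i k * pderiv j (fun z => b z k) y)

theorem fderiv_eq_sum_pd (f : En n → ℝ) (y v : En n) :
    fderiv ℝ f y v = ∑ k, v k * pderiv k f y := by
  conv_lhs => rw [eq_sum_single v]
  simp only [map_sum, map_smul, smul_eq_mul, pderiv]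

theorem fderiv_coord {b : En n → En n} {y : En n} (hb : DifferentiableAt ℝ b y) (v : En n)
    (k : Fin n) : fderiv ℝ b y v k = ∑ l, v l * pderiv l (fun z => b z k) y := by
  have h := ((EuclideanSpace.proj k : En n →L[ℝ] ℝ).hasFDerivAt.comp y hb.hasFDerivAt).fderiv
  rw [← fderiv_eq_sum_pd]
  have h2 : (fun z => b z k) = (EuclideanSpace.proj k : En n →L[ℝ] ℝ) ∘ b := rfl
  rw [h2, h]
  rfl

theorem lie_form {b : En n → En n} {y : En n} (hb : DifferentiableAt ℝ b y) (G : MetricField n)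
    (u v : En n) : ∑ a, ∑ c, lieG b G y a c * u a * v c =
      ∑ a, ∑ c, (fderiv ℝ (fun z => G z a c) y (b y) * u a * v c +
        G y a c * fderiv ℝ b y u a * v c + G y a c * u a * fderiv ℝ b y v c) := by
  simp only [lieG, fderiv_coord hb, fderiv_eq_sum_pd, Finset.sum_add_distrib, add_mul,
    Finset.sum_mul, Finset.mul_sum]
  congr 1
  · congr 1
    rw [Finset.sum_comm]
    conv_rhs => rw [Finset.sum_comm]
    refine Finset.sum_congr rfl fun c _ => ?_
    rw [Finset.sum_comm]
    exact Finset.sum_congr rfl fun k _ => Finset.sum_congr rfl fun a _ => by ring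
  · refine Finset.sum_congr rfl fun a _ => ?_
    rw [Finset.sum_comm]
    exact Finset.sum_congr rfl fun k _ => Finset.sum_congr rfl fun c _ => by ring

section
variable {F : Type*} [NormedAddCommGroup F] [NormedSpace ℝ F]

theorem fderiv_slice {Φ : ℝ × En n → F} {t : ℝ} {y : En n} (h : DifferentiableAt ℝ Φ (t, y))
    (u : En n) : fderiv ℝ (fun w => Φ (t, w)) y u = fderiv ℝ Φ (t, y) (0, u) := by
  have h1 : HasFDerivAt (fun w : En n => (t, w)) (ContinuousLinearMap.inr ℝ ℝ (En n)) y :=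
    hasFDerivAt_prodMk_right t y
  have h2 := (h.hasFDerivAt.comp y h1).fderiv
  exact congrArg (fun L : En n →L[ℝ] F => L u) h2

theorem hasDerivAt_slice {Φ : ℝ × En n → F} {t : ℝ} {y : En n}
    (h : DifferentiableAt ℝ Φ (t, y)) :
    HasDerivAt (fun s => Φ (s, y)) (fderiv ℝ Φ (t, y) (1, 0)) t := by
  have h1 : HasDerivAt (fun s : ℝ => (s, y)) ((1 : ℝ), (0 : En n)) t :=
    (hasDerivAt_id t).prodMk (hasDerivAt_const t y)
  exact h.hasFDerivAt.comp_hasDerivAt t h1

/-- the variational equation: time derivative of the space differential -/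
theorem hasDerivAt_fderiv_slice {Φ : ℝ × En n → F} {t : ℝ} {y : En n}
    (h : ContDiffAt ℝ ∞ Φ (t, y)) {β : En n → F}
    (hβ : ∀ᶠ w in 𝓝 y, HasDerivAt (fun s => Φ (s, w)) (β w) t) (u : En n) :
    HasDerivAt (fun s => fderiv ℝ (fun w => Φ (s, w)) y u) (fderiv ℝ β y u) t := by
  have h2 : ContDiffAt ℝ 2 Φ (t, y) := h.of_le (by norm_cast)
  have hev : ∀ᶠ p in 𝓝 (t, y), DifferentiableAt ℝ Φ p :=
    (h2.eventually (by simp)).mono fun p hp => hp.differentiableAt (by simp)
  have hd : DifferentiableAt ℝ (fderiv ℝ Φ) (t, y) :=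
    (h2.fderiv_right (m := 1) (by norm_num)).differentiableAt (by simp)
  have hs := h2.isSymmSndFDerivAt (by simp)
  have e1 : (fun s => fderiv ℝ (fun w => Φ (s, w)) y u) =ᶠ[𝓝 t]
      fun s => fderiv ℝ Φ (s, y) (0, u) := by
    have c : ContinuousAt (fun s : ℝ => (s, y)) t := by fun_prop
    filter_upwards [c.eventually hev] with s hs using fderiv_slice hs u
  have e2 : β =ᶠ[𝓝 y] fun w => fderiv ℝ Φ (t, w) (1, 0) := by
    have c : ContinuousAt (fun w : En n => (t, w)) y := by fun_prop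
    filter_upwards [c.eventually hev, hβ] with w h3 h4 using h4.unique (hasDerivAt_slice h3)
  have hd1 : DifferentiableAt ℝ (fun p => fderiv ℝ Φ p ((1 : ℝ), (0 : En n))) (t, y) :=
    hd.clm_apply (differentiableAt_const _)
  have hd2 : DifferentiableAt ℝ (fun p => fderiv ℝ Φ p ((0 : ℝ), u)) (t, y) :=
    hd.clm_apply (differentiableAt_const _)
  have k : ∀ v w : ℝ × En n, fderiv ℝ (fun p => fderiv ℝ Φ p w) (t, y) v =
      fderiv ℝ (fderiv ℝ Φ) (t, y) v w := by
    intro v w
    rw [fderiv_clm_apply hd (differentiableAt_const _)]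
    simp
  have e3 : fderiv ℝ β y u = fderiv ℝ (fun p => fderiv ℝ Φ p ((0 : ℝ), u)) (t, y) (1, 0) := by
    rw [e2.fderiv_eq, fderiv_slice hd1, k, k, hs.eq]
  rw [e3]
  exact (hasDerivAt_slice hd2).congr_of_eventuallyEq e1

end

/-- **derivative of a pull-back along a flow**, in coordinates -/
theorem hasDerivAt_pull {Φ : ℝ × En n → En n} {t : ℝ} {y : En n} (h : ContDiffAt ℝ ∞ Φ (t, y))
    {b : En n → En n} (hb : DifferentiableAt ℝ b (Φ (t, y)))
    (hode : ∀ᶠ w in 𝓝 y, HasDerivAt (fun s => Φ (s, w)) (b (Φ (t, w))) t)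
    {G : ℝ → MetricField n}
    (hG : ∀ a c, DifferentiableAt ℝ (fun p : ℝ × En n => G p.1 p.2 a c) (t, Φ (t, y)))
    {H : Fin n → Fin n → ℝ} (hH : ∀ a c, HasDerivAt (fun s => G s (Φ (t, y)) a c) (H a c) t)
    (u v : En n) :
    HasDerivAt (fun s => ∑ a, ∑ c, G s (Φ (s, y)) a c * fderiv ℝ (fun w => Φ (s, w)) y u a *
        fderiv ℝ (fun w => Φ (s, w)) y v c)
      (∑ a, ∑ c, (H a c + lieG b (G t) (Φ (t, y)) a c) * fderiv ℝ (fun w => Φ (t, w)) y u a *
        fderiv ℝ (fun w => Φ (t, w)) y v c) t := by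
  have hs : DifferentiableAt ℝ (fun w => Φ (t, w)) y :=
    (h.differentiableAt (by simp)).comp y (by fun_prop : DifferentiableAt ℝ (fun w => (t, w)) y)
  have hA : ∀ (u : En n) (a : Fin n), HasDerivAt (fun s => fderiv ℝ (fun w => Φ (s, w)) y u a)
      (fderiv ℝ b (Φ (t, y)) (fderiv ℝ (fun w => Φ (t, w)) y u) a) t := by
    intro u a
    have h1 := hasDerivAt_fderiv_slice h hode u
    have h2 : fderiv ℝ (fun w => b (Φ (t, w))) y u =
        fderiv ℝ b (Φ (t, y)) (fderiv ℝ (fun w => Φ (t, w)) y u) :=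
      congrArg (fun L : En n →L[ℝ] En n => L u) (fderiv_comp y hb hs)
    rw [h2] at h1
    exact (EuclideanSpace.proj a : En n →L[ℝ] ℝ).hasFDerivAt.comp_hasDerivAt t h1
  have hB : ∀ a c, HasDerivAt (fun s => G s (Φ (s, y)) a c)
      (H a c + fderiv ℝ (fun z => G t z a c) (Φ (t, y)) (b (Φ (t, y)))) t := by
    intro a c
    have h1 : HasDerivAt (fun s => (s, Φ (s, y))) ((1 : ℝ), b (Φ (t, y))) t :=
      (hasDerivAt_id t).prodMk hode.self_of_nhds
    have h2 := (hG a c).hasFDerivAt.comp_hasDerivAt t h1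
    have h3 : H a c = _ := (hH a c).unique (hasDerivAt_slice (hG a c))
    rw [h3, fderiv_slice (hG a c), ← map_add, Prod.mk_add_mk, add_zero, zero_add]
    exact h2
  simp only [add_mul, Finset.sum_add_distrib]
  rw [lie_form hb, ← Finset.sum_add_distrib]
  refine HasDerivAt.fun_sum fun a _ => ?_
  rw [← Finset.sum_add_distrib]
  refine HasDerivAt.fun_sum fun c _ => ?_
  refine (((hB a c).mul (hA u a)).mul (hA v c)).congr_deriv ?_
  simp only [Pi.mul_apply]
  ring

/-! ### pull-back of a metric -/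

variable {M M' : Type*} [TopologicalSpace M] [ChartedSpace (En n) M] [IsManifold 𝓘(ℝ, En n) ∞ M]
  [TopologicalSpace M'] [ChartedSpace (En n) M'] [IsManifold 𝓘(ℝ, En n) ∞ M']

/-- differential, as a map of the model space -/
def dM (n : ℕ) {M M' : Type*} [TopologicalSpace M] [ChartedSpace (En n) M] [TopologicalSpace M']
    [ChartedSpace (En n) M'] (f : M' → M) (p : M') : En n →L[ℝ] En n :=
  mfderiv 𝓘(ℝ, En n) 𝓘(ℝ, En n) f p

/-- the form of a metric at a point, as a form on the model space -/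
def inn (m : Met n M) (p : M) : En n →L[ℝ] En n →L[ℝ] ℝ := m.inner p

/-- the pull-back field of forms -/
def pbF (m : Met n M) (f : M' → M) : Frm n M' := fun p =>
  (((inn m (f p)).comp (dM n f p)).flip.comp (dM n f p)).flip

theorem pbF_apply (m : Met n M) (f : M' → M) (p : M') (v w : En n) :
    pbF m f p v w = m.inner (f p) (dM n f p v) (dM n f p w) := rfl

/-- a map read in charts -/
def rdM (n : ℕ) {M M' : Type*} [TopologicalSpace M] [ChartedSpace (En n) M] [TopologicalSpace M']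
    [ChartedSpace (En n) M'] (f : M' → M) (x : M') (z : M) (y : En n) : En n :=
  chartAt (En n) z (f ((chartAt (En n) x).symm y))

/-- domain of a map read in charts -/
def rdD (n : ℕ) {M M' : Type*} [TopologicalSpace M] [ChartedSpace (En n) M] [TopologicalSpace M']
    [ChartedSpace (En n) M'] (f : M' → M) (x : M') (z : M) : Set (En n) :=
  {y | y ∈ tg n x ∧ f ((chartAt (En n) x).symm y) ∈ (chartAt (En n) z).source}

variable {f : M' → M} {x : M'} {z : M} {y : En n}

theorem isOpen_rdD (hf : Continuous f) (x : M') (z : M) : IsOpen (rdD n f x z) :=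
  (chartAt (En n) x).isOpen_inter_preimage_symm ((chartAt (En n) z).open_source.preimage hf)

theorem mem_rdD_self (f : M' → M) (hy : y ∈ tg n x) :
    y ∈ rdD n f x (f ((chartAt (En n) x).symm y)) := ⟨hy, mem_chart_source _ _⟩

theorem contDiffOn_rdM (hf : ContMDiff 𝓘(ℝ, En n) 𝓘(ℝ, En n) ∞ f) (x : M') (z : M) :
    ContDiffOn ℝ ∞ (rdM n f x z) (rdD n f x z) := by
  rw [← contMDiffOn_iff_contDiffOn]
  have h1 : ContMDiffOn 𝓘(ℝ, En n) 𝓘(ℝ, En n) ∞ (chartAt (En n) x).symm (tg n x) :=
    contMDiffOn_chart_symm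
  have h2 : ContMDiffOn 𝓘(ℝ, En n) 𝓘(ℝ, En n) ∞ (chartAt (En n) z) (chartAt (En n) z).source :=
    contMDiffOn_chart
  exact h2.comp (hf.comp_contMDiffOn (h1.mono fun y hy => hy.1)) fun y hy => hy.2

theorem fderiv_rdM (hf : ContMDiff 𝓘(ℝ, En n) 𝓘(ℝ, En n) ∞ f) (hy : y ∈ rdD n f x z) (u : En n) :
    fderiv ℝ (rdM n f x z) y u = Bo84.dCh z (f ((chartAt (En n) x).symm y))
      (dM n f ((chartAt (En n) x).symm y) (Bo84.dSy x y u)) := by
  have h1 : MDifferentiableAt 𝓘(ℝ, En n) 𝓘(ℝ, En n) (chartAt (En n) x).symm y :=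
    (mdifferentiable_chart (I := 𝓘(ℝ, En n)) x).mdifferentiableAt_symm hy.1
  have h0 : MDifferentiableAt 𝓘(ℝ, En n) 𝓘(ℝ, En n) f ((chartAt (En n) x).symm y) :=
    (hf _).mdifferentiableAt (by simp)
  have h2 : MDifferentiableAt 𝓘(ℝ, En n) 𝓘(ℝ, En n) (chartAt (En n) z)
      ((f ∘ (chartAt (En n) x).symm) y) :=
    (mdifferentiable_chart (I := 𝓘(ℝ, En n)) z).mdifferentiableAt hy.2
  have h3 := mfderiv_comp y h2 (h0.comp y h1)
  have h5 := mfderiv_comp y h0 h1
  have h4 : fderiv ℝ (rdM n f x z) y = mfderiv 𝓘(ℝ, En n) 𝓘(ℝ, En n)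
      ((chartAt (En n) z) ∘ (f ∘ (chartAt (En n) x).symm)) y := by
    rw [mfderiv_eq_fderiv]; rfl
  rw [h4, h3, h5]
  rfl

theorem frmG_pbF (m : Met n M) (hf : ContMDiff 𝓘(ℝ, En n) 𝓘(ℝ, En n) ∞ f)
    (hy : y ∈ rdD n f x z) (i j : Fin n) :
    frmG (pbF m f) x y i j = ∑ a, ∑ c, m.G z (rdM n f x z y) a c *
      (fderiv ℝ (rdM n f x z) y (EuclideanSpace.single i 1)) a *
      (fderiv ℝ (rdM n f x z) y (EuclideanSpace.single j 1)) c := by
  rw [← bil_apply, fderiv_rdM hf hy, fderiv_rdM hf hy]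
  exact frm_eq_bil m.inner z hy.2 _ _

theorem inj_rdM (hf : ContMDiff 𝓘(ℝ, En n) 𝓘(ℝ, En n) ∞ f)
    (hi : ∀ p, Function.Injective (mfderiv 𝓘(ℝ, En n) 𝓘(ℝ, En n) f p)) (hy : y ∈ rdD n f x z) :
    Function.Injective (fderiv ℝ (rdM n f x z) y) := by
  intro u v h
  rw [fderiv_rdM hf hy, fderiv_rdM hf hy] at h
  exact Bo84.dSy_injective hy.1 (hi _ (dCh_injective z hy.2 h))

/-- **the pull-back metric** of an immersion -/
def pbM (m : Met n M) (f : M' → M) (hf : ContMDiff 𝓘(ℝ, En n) 𝓘(ℝ, En n) ∞ f)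
    (hi : ∀ p, Function.Injective (mfderiv 𝓘(ℝ, En n) 𝓘(ℝ, En n) f p)) : Met n M' :=
  Met.ofFrm (pbF m f)
    (fun x i j y hy => by
      have hd := mem_rdD_self f hy
      set z := f ((chartAt (En n) x).symm y)
      have ho := isOpen_rdD (n := n) hf.continuous x z
      have h1 := contDiffOn_rdM hf x z
      have h2 : ∀ (u : En n) (a : Fin n), ContDiffOn ℝ ∞
          (fun y => fderiv ℝ (rdM n f x z) y u a) (rdD n f x z) := fun u a =>
        (EuclideanSpace.proj a : En n →L[ℝ] ℝ).contDiff.comp_contDiffOn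
          ((h1.fderiv_of_isOpen ho (by simp)).clm_apply contDiffOn_const)
      have h3 : ContDiffOn ℝ ∞ (fun y => frmG (pbF m f) x y i j) (rdD n f x z) := by
        refine ContDiffOn.congr (ContDiffOn.sum fun a _ => ContDiffOn.sum fun c _ => ?_)
          fun y hy => frmG_pbF m hf hy i j
        refine (ContDiffOn.mul ?_ (h2 _ a)).mul (h2 _ c)
        exact ((m.isRiem z).contDiffOn a c).comp h1 fun y hy => (chartAt (En n) z).map_source hy.2
      exact (h3.contDiffAt (ho.mem_nhds hd)).contDiffWithinAt)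
    fun x => by
      refine posDef_of_bil (fun i j => m.symm _ _ _) fun v hv => ?_
      rw [bil_frmG, pbF_apply]
      refine m.pos _ _ fun h => hv ?_
      have hi' : Function.Injective (dM n f ((chartAt (En n) x).symm (ctr n x))) := hi _
      refine Bo84.dSy_injective (mem_chart_target (En n) x) (hi' ?_)
      rw [map_zero, map_zero]
      exact h

theorem pbM_inner (m : Met n M) (f : M' → M) (hf hi) (p : M') (v w : En n) :
    (pbM m f hf hi).inner p v w = m.inner (f p) (dM n f p v) (dM n f p w) := rfl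

theorem pbM_G (m : Met n M) (hf hi) (hy : y ∈ rdD n f x z) (i j : Fin n) :
    (pbM m f hf hi).G x y i j = ∑ a, ∑ c, m.G z (rdM n f x z y) a c *
      (fderiv ℝ (rdM n f x z) y (EuclideanSpace.single i 1)) a *
      (fderiv ℝ (rdM n f x z) y (EuclideanSpace.single j 1)) c := frmG_pbF m hf hy i j

/-- the immersion read in charts is a local isometry -/
theorem pull_pbM (m : Met n M) (f : M' → M) (hf hi) (x : M') (z : M) :
    Pull ((pbM m f hf hi).G x) (m.G z) (rdM n f x z) (rdD n f x z) (tg n z) where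
  isOpen := isOpen_rdD hf.continuous x z
  riem := m.isRiem z
  maps _ hy := (chartAt (En n) z).map_source hy.2
  smooth := contDiffOn_rdM hf x z
  pull _ hy i j := pbM_G m hf hi hy i j
  inj _ hy := inj_rdM hf hi hy

theorem ricci_pbM (m : Met n M) (hf hi) (hy : y ∈ rdD n f x z) (i j : Fin n) :
    ricci ((pbM m f hf hi).G x) y i j = ∑ a, ∑ c, ricci (m.G z) (rdM n f x z y) a c *
      (fderiv ℝ (rdM n f x z) y (EuclideanSpace.single i 1)) a *
      (fderiv ℝ (rdM n f x z) y (EuclideanSpace.single j 1)) c := by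
  rw [← (pull_pbM m f hf hi x z).ricci_pull hy]
  simp

theorem pbM_of_eq_id (m : Met n M) {f : M → M} (h : f = id) (hf hi) : pbM m f hf hi = m := by
  subst h
  refine Met.ext' (funext fun p => ?_)
  ext v w
  have h1 : dM n (id : M → M) p = ContinuousLinearMap.id ℝ (En n) := mfderiv_id
  exact (pbM_inner m id hf hi p v w).trans (by rw [h1]; rfl)

end Crest.Agent.N207.B

end
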