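import Crest.Agent.N207.B.Pb1
import Crest.Agent.N207.B.Flow5
import Crest.Agent.N207.B.Bridge

/-!
# Row 207, block B PULLBACK, part 2 (helper69): pulling a Ricci–DeTurck flow back to a Ricci flow
-/

set_option autoImplicit false
set_option linter.unusedSectionVars false

open scoped ContDiff Manifold Topology
open Set Filter
open Crest.GeometryTopology.CoordMetric Crest.GeometryTopology.ChartCurvature
open Crest.Agent.R247 Crest.Agent.R202.Tens

noncomputable section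

namespace Crest.Agent.N207.B

universe u

variable {n : ℕ} {M : Type u} [TopologicalSpace M] [ChartedSpace (En n) M]
  [IsManifold 𝓘(ℝ, En n) ∞ M]

/-- `∂ₜ g = -2 Ric(g) - L_b g` in every preferred chart, at the times of `J` -/
def RDTOn (g : ℝ → Met n M) (b : M → ℝ × En n → En n) (J : Set ℝ) : Prop :=
  ∀ x, ∀ t ∈ J, ∀ y ∈ tg n x, ∀ i j, HasDerivAt (fun s => (g s).G x y i j)
    (-2 * ricci ((g t).G x) y i j - lieG (fun z => b x (t, z)) ((g t).G x) y i j) t

namespace IsFlow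

variable {b : M → ℝ × En n → En n} {s : ℝ} {φ ψ : ℝ → M → M}

/-- the family `φ_t^* g_t` -/
def pb (h : IsFlow b s φ ψ) (g : ℝ → Met n M) (t : ℝ) : Met n M :=
  pbM (g t) (φ t) (h.contMDiff t) (h.inj t)

theorem pb_zero (h : IsFlow b s φ ψ) (g : ℝ → Met n M) : h.pb g 0 = g 0 :=
  pbM_of_eq_id _ (funext h.zero) _ _

theorem pb_G (h : IsFlow b s φ ψ) (g : ℝ → Met n M) {t : ℝ} {x z : M} {y : En n}
    (hy : y ∈ rdD n (φ t) x z) (i j : Fin n) :
    (h.pb g t).G x y i j = ∑ a, ∑ c, (g t).G z (rdC n φ x z (t, y)) a c *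
      (fderiv ℝ (fun w => rdC n φ x z (t, w)) y (EuclideanSpace.single i 1)) a *
      (fderiv ℝ (fun w => rdC n φ x z (t, w)) y (EuclideanSpace.single j 1)) c :=
  pbM_G (g t) _ _ hy i j

theorem smFam_pb (h : IsFlow b s φ ψ) {g : ℝ → Met n M} {J : Set ℝ} (hg : SmFam g J) :
    SmFam (h.pb g) J := by
  rintro x i j ⟨t, y⟩ ⟨ht, hy⟩
  have hd := mem_rdD_self (φ t) hy
  set z := φ t ((chartAt (En n) x).symm y)
  have h1 : ContDiffAt ℝ ∞ (rdC n φ x z) (t, y) := h.sm.sm t x z y hy hd.2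
  have hn := (h.sm.isOpen_dom x z).mem_nhds (x := (t, y)) hd
  have h2 : ∀ (u : En n) (a : Fin n), ContDiffAt ℝ ∞
      (fun p : ℝ × En n => fderiv ℝ (fun w => rdC n φ x z (p.1, w)) p.2 u a) (t, y) := by
    intro u a
    have h3 : ContDiffAt ℝ ∞ (fun p : ℝ × En n => fderiv ℝ (fun w => rdC n φ x z (p.1, w)) p.2)
        (t, y) := by
      refine ContDiffAt.fderiv (f := fun (p : ℝ × En n) w => rdC n φ x z (p.1, w))
        (g := fun p => p.2) (n := ∞) ?_ contDiffAt_snd (by simp)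
      exact ContDiffAt.comp (g := rdC n φ x z)
        (f := fun q : (ℝ × En n) × En n => (q.1.1, q.2)) ((t, y), y) h1 (by fun_prop)
    exact (EuclideanSpace.proj a : En n →L[ℝ] ℝ).contDiff.contDiffAt.comp (t, y)
      (h3.clm_apply contDiffAt_const)
  have h4 : ∀ a c, ContDiffWithinAt ℝ ∞ (fun p : ℝ × En n => (g p.1).G z (rdC n φ x z p) a c)
      (J ×ˢ tg n x) (t, y) := by
    intro a c
    have h5 : ContDiffWithinAt ℝ ∞ (fun p : ℝ × En n => (g p.1).G z p.2 a c) (J ×ˢ tg n z)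
        ((fun p : ℝ × En n => (p.1, rdC n φ x z p)) (t, y)) :=
      hg z a c _ ⟨ht, (chartAt (En n) z).map_source hd.2⟩
    refine h5.comp_of_preimage_mem_nhdsWithin (f := fun p : ℝ × En n => (p.1, rdC n φ x z p))
      (t, y) (contDiffAt_fst.prodMk h1).contDiffWithinAt ?_
    filter_upwards [nhdsWithin_le_nhds hn, self_mem_nhdsWithin] with p h6 h7
    exact ⟨h7.1, (chartAt (En n) z).map_source h6.2⟩
  have h8 : ContDiffWithinAt ℝ ∞ (fun p : ℝ × En n => ∑ a, ∑ c,
      (g p.1).G z (rdC n φ x z p) a c *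
      (fderiv ℝ (fun w => rdC n φ x z (p.1, w)) p.2 (EuclideanSpace.single i 1)) a *
      (fderiv ℝ (fun w => rdC n φ x z (p.1, w)) p.2 (EuclideanSpace.single j 1)) c)
      (J ×ˢ tg n x) (t, y) :=
    ContDiffWithinAt.sum fun a _ => ContDiffWithinAt.sum fun c _ =>
      ((h4 a c).mul (h2 _ a).contDiffWithinAt).mul (h2 _ c).contDiffWithinAt
  refine h8.congr_of_eventuallyEq ?_ (h.pb_G g hd i j)
  filter_upwards [nhdsWithin_le_nhds hn] with p hp using h.pb_G g hp i j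

/-- derivative of the pulled-back family for an arbitrary time derivative `H` of `g` -/
theorem hasDerivAt_pb (h : IsFlow b s φ ψ) {g : ℝ → Met n M} {J : Set ℝ} (hg : SmFam g J)
    {t : ℝ} (ht : t ∈ Icc 0 s) (hJ : J ∈ 𝓝 t) {x z : M} {y : En n} (hy : y ∈ rdD n (φ t) x z)
    (hb : DifferentiableAt ℝ (fun w => b z (t, w)) (rdC n φ x z (t, y))) {H : Fin n → Fin n → ℝ}
    (hH : ∀ a c, HasDerivAt (fun r => (g r).G z (rdC n φ x z (t, y)) a c) (H a c) t)
    (i j : Fin n) :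
    HasDerivAt (fun r => (h.pb g r).G x y i j)
      (∑ a, ∑ c, (H a c + lieG (fun w => b z (t, w)) ((g t).G z) (rdC n φ x z (t, y)) a c) *
        (fderiv ℝ (fun w => rdC n φ x z (t, w)) y (EuclideanSpace.single i 1)) a *
        (fderiv ℝ (fun w => rdC n φ x z (t, w)) y (EuclideanSpace.single j 1)) c) t := by
  have hn := (h.sm.isOpen_dom x z).mem_nhds (x := (t, y)) hy
  have h1 := hasDerivAt_pull (Φ := rdC n φ x z) (G := fun r => (g r).G z)
    (h.sm.sm t x z y hy.1 hy.2) hb ?_ ?_ hH (EuclideanSpace.single i 1) (EuclideanSpace.single j 1)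
  · refine h1.congr_of_eventuallyEq ?_
    have c : ContinuousAt (fun r : ℝ => (r, y)) t := by fun_prop
    filter_upwards [c.eventually hn] with r hr using h.pb_G g hr i j
  · have c : ContinuousAt (fun w : En n => (t, w)) y := by fun_prop
    filter_upwards [c.eventually hn] with w hw using h.ode_rdC ht hw.2
  · intro a c
    exact ((hg z a c).contDiffAt (prod_mem_nhds hJ ((chartAt (En n) z).open_target.mem_nhds
      ((chartAt (En n) z).map_source hy.2)))).differentiableAt (by simp)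

theorem rfOn_pb (h : IsFlow b s φ ψ) {g : ℝ → Met n M} {J : Set ℝ} (hJ : IsOpen J)
    (hs : J ⊆ Icc 0 s) (hg : SmFam g J)
    (hb : ∀ x, ∀ t ∈ J, DifferentiableOn ℝ (fun w => b x (t, w)) (tg n x)) (he : RDTOn g b J) :
    RFOn (h.pb g) J := by
  intro x t ht y hy i j
  have hd := mem_rdD_self (φ t) hy
  set z := φ t ((chartAt (En n) x).symm y)
  have hz : rdC n φ x z (t, y) ∈ tg n z := (chartAt (En n) z).map_source hd.2
  have h1 := h.hasDerivAt_pb hg (hs ht) (hJ.mem_nhds ht) hd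
    ((hb z t ht).differentiableAt ((chartAt (En n) z).open_target.mem_nhds hz))
    (he z t ht _ hz) i j
  refine h1.congr_deriv ?_
  have h2 := ricci_pbM (g t) (h.contMDiff t) (h.inj t) hd i j
  rw [show ricci ((h.pb g t).G x) y i j = _ from h2, Finset.mul_sum]
  refine Finset.sum_congr rfl fun a _ => ?_
  rw [Finset.mul_sum]
  refine Finset.sum_congr rfl fun c _ => ?_
  change _ = -2 * (ricci ((g t).G z) (rdC n φ x z (t, y)) a c *
    (fderiv ℝ (fun w => rdC n φ x z (t, w)) y (EuclideanSpace.single i 1)) a *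
    (fderiv ℝ (fun w => rdC n φ x z (t, w)) y (EuclideanSpace.single j 1)) c)
  ring

end IsFlow

/-- **a solution of `∂ₜ g = -2 Ric - L_b g` gives a Ricci flow with the same initial metric** -/
theorem exists_rf [CompactSpace M] [T2Space M] {τ : ℝ} (hτ : 0 < τ) {g : ℝ → Met n M}
    {b : M → ℝ × En n → En n} (hg : SmFam g (Icc 0 τ))
    (hb : ∀ x, ContDiffOn ℝ ∞ (b x) (Icc 0 τ ×ˢ tg n x)) (hc : VCompat b (Icc 0 τ))
    (he : RDTOn g b (Ioo 0 τ)) :
    ∃ m : ℝ → Met n M, SmFam m (Icc 0 (τ / 2)) ∧ RFOn m (Ioo 0 (τ / 2)) ∧ m 0 = g 0 := by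
  obtain ⟨φ, ψ, h⟩ := exists_flow hτ hb hc
  have h1 : Ioo 0 (τ / 2) ⊆ Ioo 0 τ := Ioo_subset_Ioo_right (by linarith)
  refine ⟨h.pb g, h.smFam_pb (hg.mono (Icc_subset_Icc_right (by linarith))),
    h.rfOn_pb isOpen_Ioo Ioo_subset_Icc_self (hg.mono (h1.trans Ioo_subset_Icc_self)) ?_
      (fun x t ht => he x t (h1 ht)), h.pb_zero g⟩
  intro x t ht
  refine ((hb x).comp (f := fun w : En n => (t, w)) (by fun_prop) fun w hw =>
    ⟨Ioo_subset_Icc_self (h1 ht), hw⟩).differentiableOn (by simp)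

/-- the same as a `Flow` -/
theorem exists_Flow {M : Type u} [TopologicalSpace M] [ChartedSpace E4 M]
    [IsManifold 𝓘(ℝ, E4) ∞ M] [CompactSpace M] [T2Space M] {τ : ℝ} (hτ : 0 < τ)
    {g : ℝ → Met 4 M} {b : M → ℝ × E4 → E4} (hg : SmFam g (Icc 0 τ))
    (hb : ∀ x, ContDiffOn ℝ ∞ (b x) (Icc 0 τ ×ˢ tg 4 x)) (hc : VCompat b (Icc 0 τ))
    (he : RDTOn g b (Ioo 0 τ)) :
    ∃ F : Flow M, F.m 0 = g 0 := by
  obtain ⟨m, h1, h2, h3⟩ := exists_rf hτ hg hb hc he
  exact ⟨⟨τ / 2, by linarith, m, h1.mono Ico_subset_Icc_self, h2⟩, h3⟩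

end Crest.Agent.N207.B

end
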