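import Crest.Agent.N207.B.Dt2
import Crest.Agent.N207.B.Emb
import Crest.Agent.N207.P.St
import Crest.Agent.N207.AI.Par1

/-!
# Row 207, block B STE, part 4 (helper69): the DeTurck operator on vector valued functions
-/

set_option autoImplicit false
set_option linter.unusedSectionVars false

open scoped ContDiff Manifold Topology Matrix
open Set Filter
open Crest.GeometryTopology.CoordMetric Crest.GeometryTopology.ChartCurvature
open Crest.Agent.R247 Crest.Agent.R202.Tens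

noncomputable section

namespace Crest.Agent.N207.B

variable {n : ℕ} {M : Type*} [TopologicalSpace M] [ChartedSpace (En n) M]
  [IsManifold 𝓘(ℝ, En n) ∞ M] {V : Type} [NormedAddCommGroup V] [NormedSpace ℝ V]

theorem eventually_posDef {X : Type*} [TopologicalSpace X] {A : X → Matrix (Fin n) (Fin n) ℝ}
    {x : X} (hc : ∀ i j, ContinuousAt (fun z => A z i j) x) (hs : ∀ z i j, A z i j = A z j i)
    (hp : (A x).PosDef) : ∀ᶠ z in 𝓝 x, (A z).PosDef := by
  obtain ⟨c, hc0, hl⟩ := exists_lower (bil (A x)) fun v hv => bil_pos_of hp hv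
  have h1 : ContinuousAt (fun z => ∑ i, ∑ j, |A z i j - A x i j|) x :=
    tendsto_finsetSum _ fun i _ => tendsto_finsetSum _ fun j _ =>
      ((hc i j).sub continuousAt_const).abs
  have h2 : ∀ᶠ z in 𝓝 x, ∑ i, ∑ j, |A z i j - A x i j| < c :=
    h1.eventually (Iio_mem_nhds (by simpa using hc0))
  filter_upwards [h2] with z hz
  refine posDef_of_bil (hs z) fun v hv => ?_
  have h3 : bil (A x) v v - bil (A z) v v ≤ (∑ i, ∑ j, |A z i j - A x i j|) * ‖v‖ ^ 2 := by
    simp only [bil_apply, ← Finset.sum_sub_distrib, Finset.sum_mul]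
    refine Finset.sum_le_sum fun i _ => Finset.sum_le_sum fun j _ => ?_
    have h4 : |v i * v j| ≤ ‖v‖ ^ 2 := by
      rw [abs_mul, sq]
      exact mul_le_mul (PiLp.norm_apply_le v i) (PiLp.norm_apply_le v j) (abs_nonneg _)
        (norm_nonneg _)
    have h5 : A x i j * v i * v j - A z i j * v i * v j = -((A z i j - A x i j) * (v i * v j)) := by
      ring
    rw [h5]
    refine (neg_le_abs _).trans ?_
    rw [abs_mul]
    exact mul_le_mul_of_nonneg_left h4 (abs_nonneg _)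
  have h5 : 0 < ‖v‖ ^ 2 := by positivity
  have h6 := hl v
  nlinarith

theorem pull_mono {G G' : MetricField n} {Φ : En n → En n} {U U' W : Set (En n)}
    (p : Pull G' G Φ U W) (hU : IsOpen U') (h : U' ⊆ U) : Pull G' G Φ U' W :=
  ⟨hU, p.riem, fun y hy => p.maps y (h hy), p.smooth.mono h, fun y hy => p.pull y (h hy),
    fun y hy => p.inj y (h hy)⟩

theorem inj_trans {x₀ x₁ : M} {y : En n} (hy : y ∈ Bo84.tdom x₀ x₁) :
    Function.Injective (fderiv ℝ (Bo84.trans (n := n) x₀ x₁) y) := fun u v h =>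
  Bo84.dSy_injective hy.1 (by rw [← Bo84.dSy_trans hy, ← Bo84.dSy_trans hy, h])

namespace Emb

variable (E : Emb n M V) (h : Met n M)

/-- the symmetric matrix of a vector -/
def cm (x : M) (y : En n) (v : V) : Matrix (Fin n) (Fin n) ℝ := Matrix.of fun i j => E.c x y i j v

/-- the matrix field of a function -/
def Gf (x : M) (f : En n → V) : MetricField n := fun y => E.cm x y (f y)

/-- the operator in the chart at `x` -/
def opC (x : M) (f : En n → V) (y : En n) : V :=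
  trH (E.Gf x f) (h.G x) f y + ∑ i, ∑ j, (DT (E.Gf x f) (h.G x) y i j -
    E.c x y i j (trH (E.Gf x f) (h.G x) f y)) • E.e x y i j

/-- the operator -/
def Op (u : M → V) (p : M) : V := E.opC h p (P.rd n p u) (ctr n p)

/-- admissible values -/
def O : Set (M × V) := {q | (E.cm q.1 (ctr n q.1) q.2).PosDef}

variable {E h}

theorem posDef_tr {x₀ x₁ : M} {y : En n} (hy : y ∈ Bo84.tdom x₀ x₁) {v : V}
    (hp : (E.cm x₁ (Bo84.trans x₀ x₁ y) v).PosDef) : (E.cm x₀ y v).PosDef := by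
  have h1 := hp.conjTranspose_mul_mul_same (jac_inj (inj_trans hy))
  rw [Matrix.conjTranspose_eq_transpose_of_trivial] at h1
  convert h1 using 1
  ext i j
  rw [conj_apply]
  exact E.trc x₀ x₁ y hy v i j

theorem posDef_iff {x : M} {y : En n} (hy : y ∈ tg n x) (v : V) :
    (E.cm x y v).PosDef ↔ ((chartAt (En n) x).symm y, v) ∈ E.O := by
  refine ⟨fun hp => ?_, fun hp => posDef_tr (mem_tdom_self hy) hp⟩
  set p := (chartAt (En n) x).symm y with hpdef
  have h1 : ctr n p ∈ Bo84.tdom p x := by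
    refine ⟨ctr_mem p, ?_⟩
    show (chartAt (En n) p).symm (ctr n p) ∈ (chartAt (En n) x).source
    rw [symm_ctr]
    exact (chartAt (En n) x).map_target hy
  refine posDef_tr h1 ?_
  have h2 : Bo84.trans p x (ctr n p) = y := by
    rw [Bo84.trans, symm_ctr]
    exact (chartAt (En n) x).right_inv hy
  rwa [h2]

theorem isOpen_O : IsOpen E.O := by
  refine isOpen_iff_mem_nhds.2 fun q hq => ?_
  have hs := mem_chart_source (En n) q.1
  have h1 : ContinuousAt (fun z : M × V => chartAt (En n) q.1 z.1) q :=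
    ContinuousAt.comp (g := chartAt (En n) q.1) ((chartAt (En n) q.1).continuousAt hs)
      continuousAt_fst
  have h2 := eventually_posDef (A := fun z : M × V => E.cm q.1 (chartAt (En n) q.1 z.1) z.2)
    (x := q) (fun i j => ContinuousAt.clm_apply (ContinuousAt.comp (g := fun y => E.c q.1 y i j)
      ((E.sc q.1 i j).continuousOn.continuousAt ((isOpen_tg q.1).mem_nhds (ctr_mem q.1))) h1)
      continuousAt_snd) (fun z i j => E.symm _ _ i j _) hq
  filter_upwards [h2, continuousAt_fst.eventually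
    ((chartAt (En n) q.1).open_source.mem_nhds hs)] with z h3 h4
  have h5 := (posDef_iff ((chartAt (En n) q.1).map_source h4) z.2).1 h3
  rwa [(chartAt (En n) q.1).left_inv h4] at h5

/-- an open set read in a chart -/
def chW (n : ℕ) {M : Type*} [TopologicalSpace M] [ChartedSpace (En n) M] (x : M) (W : Set M) :
    Set (En n) := tg n x ∩ (chartAt (En n) x).symm ⁻¹' W

theorem isOpen_chW (x : M) {W : Set M} (hW : IsOpen W) : IsOpen (chW n x W) :=
  (chartAt (En n) x).isOpen_inter_preimage_symm hW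

theorem sm_rd {u : M → V} {W : Set M} (hu : ContMDiffOn 𝓘(ℝ, En n) 𝓘(ℝ, V) ∞ u W) (x : M) :
    ContDiffOn ℝ ∞ (P.rd n x u) (chW n x W) :=
  contMDiffOn_iff_contDiffOn.1
    (hu.comp (contMDiffOn_chart_symm.mono inter_subset_left) fun _ hy => hy.2)

theorem riem_Gf {x : M} {f : En n → V} {U : Set (En n)} (hU : IsOpen U) (hs : U ⊆ tg n x)
    (hf : ContDiffOn ℝ ∞ f U) (hp : ∀ y ∈ U, ((chartAt (En n) x).symm y, f y) ∈ E.O) :
    IsRiemannianOn (E.Gf x f) U :=
  ⟨hU, fun i j => ((E.sc x i j).mono hs).clm_apply hf,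
    fun y hy => (posDef_iff (hs hy) _).2 (hp y hy)⟩

variable {u : M → V} {W : Set M}

theorem riem_rd (hW : IsOpen W) (hu : ContMDiffOn 𝓘(ℝ, En n) 𝓘(ℝ, V) ∞ u W)
    (hO : ∀ p ∈ W, (p, u p) ∈ E.O) (x : M) : IsRiemannianOn (E.Gf x (P.rd n x u)) (chW n x W) :=
  riem_Gf (isOpen_chW x hW) inter_subset_left (sm_rd hu x) fun _ hy => hO _ hy.2

theorem rd_trans (u : M → V) {x₀ x₁ : M} {y : En n} (hy : y ∈ Bo84.tdom x₀ x₁) :
    P.rd n x₀ u y = P.rd n x₁ u (Bo84.trans x₀ x₁ y) := congrArg u (Bo84.symm_trans hy).symm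

theorem pull_rd (hW : IsOpen W) (hu : ContMDiffOn 𝓘(ℝ, En n) 𝓘(ℝ, V) ∞ u W)
    (hO : ∀ p ∈ W, (p, u p) ∈ E.O) (x₀ x₁ : M) :
    Pull (E.Gf x₀ (P.rd n x₀ u)) (E.Gf x₁ (P.rd n x₁ u)) (Bo84.trans x₀ x₁)
      (Bo84.tdom x₀ x₁ ∩ chW n x₀ W) (chW n x₁ W) where
  isOpen := (Bo84.isOpen_tdom x₀ x₁).inter (isOpen_chW x₀ hW)
  riem := riem_rd hW hu hO x₁
  maps y hy := ⟨Bo84.trans_mem hy.1, by
    show (chartAt (En n) x₁).symm (Bo84.trans x₀ x₁ y) ∈ W
    rw [Bo84.symm_trans hy.1]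
    exact hy.2.2⟩
  smooth := (Bo84.contDiffOn_trans x₀ x₁).mono inter_subset_left
  pull y hy i j := by
    show E.c x₀ y i j (P.rd n x₀ u y) = _
    rw [rd_trans u hy.1]
    exact E.trc x₀ x₁ y hy.1 _ i j
  inj y hy := inj_trans hy.1

theorem opC_tr (hW : IsOpen W) (hu : ContMDiffOn 𝓘(ℝ, En n) 𝓘(ℝ, V) ∞ u W)
    (hO : ∀ p ∈ W, (p, u p) ∈ E.O) {x₀ x₁ : M} {y : En n} (hy : y ∈ Bo84.tdom x₀ x₁)
    (hyW : (chartAt (En n) x₀).symm y ∈ W) :
    E.opC h x₀ (P.rd n x₀ u) y = E.opC h x₁ (P.rd n x₁ u) (Bo84.trans x₀ x₁ y) := by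
  have p := pull_rd hW hu hO x₀ x₁
  have q := pull_mono (h.pull_trans x₀ x₁) p.isOpen inter_subset_left
  have hy' : y ∈ Bo84.tdom x₀ x₁ ∩ chW n x₀ W := ⟨hy, hy.1, hyW⟩
  have h1 : trH (E.Gf x₀ (P.rd n x₀ u)) (h.G x₀) (P.rd n x₀ u) y =
      trH (E.Gf x₁ (P.rd n x₁ u)) (h.G x₁) (P.rd n x₁ u) (Bo84.trans x₀ x₁ y) := by
    rw [← trH_pull p q hy' (c2At' (sm_rd hu x₁) p.riem.isOpen (p.maps y hy'))]
    refine trH_congr ?_ _ _
    filter_upwards [(Bo84.isOpen_tdom x₀ x₁).mem_nhds hy] with z hz using rd_trans u hz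
  rw [opC, opC, h1]
  congr 1
  refine E.tre x₀ x₁ y hy _ _ fun i j => ?_
  rw [DT_pull p q hy', E.trc x₀ x₁ y hy, ← Finset.sum_sub_distrib]
  refine Finset.sum_congr rfl fun a _ => ?_
  rw [← Finset.sum_sub_distrib]
  exact Finset.sum_congr rfl fun b _ => by ring
where
  c2At' {f : En n → V} {U : Set (En n)} {y : En n} (hf : ContDiffOn ℝ ∞ f U) (hU : IsOpen U)
      (hy : y ∈ U) : ContDiffAt ℝ 2 f y := (hf.contDiffAt (hU.mem_nhds hy)).of_le (by norm_cast)

theorem Op_chart (hW : IsOpen W) (hu : ContMDiffOn 𝓘(ℝ, En n) 𝓘(ℝ, V) ∞ u W)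
    (hO : ∀ p ∈ W, (p, u p) ∈ E.O) {x : M} {y : En n} (hy : y ∈ tg n x)
    (hyW : (chartAt (En n) x).symm y ∈ W) :
    E.Op h u ((chartAt (En n) x).symm y) = E.opC h x (P.rd n x u) y :=
  (opC_tr hW hu hO (mem_tdom_self hy) hyW).symm

/-- the restriction of the operator is the DeTurck operator -/
theorem c_opC {x : M} {f : En n → V} {U : Set (En n)} {y : En n}
    (hG : IsRiemannianOn (E.Gf x f) U) (hy : y ∈ U) (hy' : y ∈ tg n x) (i j : Fin n) :
    E.c x y i j (E.opC h x f y) = DT (E.Gf x f) (h.G x) y i j := by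
  rw [opC, map_add, E.dual x y hy' _ fun i j => by rw [DT_symm hG hy, E.symm x y i j]]
  ring

/-! ### the coefficients -/

variable (E h)

/-- first derivatives of the metric -/
def p1 (x : M) (y : En n) (v : V) (p : Fin n → V) : A3 n := fun m i j =>
  P.pd m (fun z => E.c x z i j) y v + E.c x y i j (p m)

/-- first order part of `trH` -/
def tt (x : M) (y : En n) (v : V) (p : Fin n → V) : V :=
  ∑ k, ∑ l, ∑ m, ((E.cm x y v)⁻¹ k l * christoffel (h.G x) y m k l) • p m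

/-- the lower order part of the operator -/
def bb (x : M) (y : En n) (v : V) (p : Fin n → V) : V :=
  -E.tt h x y v p + ∑ i, ∑ j, ((∑ k, ∑ l, (E.cm x y v)⁻¹ k l *
    (P.pd k (P.pd l fun z => E.c x z i j) y v + P.pd l (fun z => E.c x z i j) y (p k) +
      P.pd k (fun z => E.c x z i j) y (p l))) +
    fDT (E.cm x y v) (E.cm x y v)⁻¹ (E.p1 x y v p) (christoffel (h.G x) y)
      (fs1 (E.cm x y v)⁻¹ (E.p1 x y v p)) (dchr (h.G x) y) i j +
    E.c x y i j (E.tt h x y v p)) • E.e x y i j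

variable {E h}

theorem pd_apply {c : En n → V →L[ℝ] ℝ} {f : En n → V} {y : En n} (hc : DifferentiableAt ℝ c y)
    (hf : DifferentiableAt ℝ f y) (m : Fin n) :
    pderiv m (fun z => c z (f z)) y = P.pd m c y (f y) + c y (P.pd m f y) := by
  rw [pderiv, fderiv_clm_apply hc hf, add_comm]
  rfl

theorem opC_eq {x : M} {f : En n → V} {U : Set (En n)} {y : En n}
    (hG : IsRiemannianOn (E.Gf x f) U) (hs : U ⊆ tg n x) (hf : ContDiffOn ℝ ∞ f U) (hy : y ∈ U) :
    E.opC h x f y = P.Lop (E.cm x y (f y))⁻¹ f y + E.bb h x y (f y) (P.d1 f y) := by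
  have hU := hG.isOpen
  have d : ∀ {F : Type} [NormedAddCommGroup F] [NormedSpace ℝ F] {g : En n → F},
      ContDiffOn ℝ ∞ g U → ∀ z ∈ U, DifferentiableAt ℝ g z := fun hg z hz =>
    (hg.contDiffAt (hU.mem_nhds hz)).differentiableAt (by simp)
  have hc : ∀ i j, ContDiffOn ℝ ∞ (fun z => E.c x z i j) U := fun i j => (E.sc x i j).mono hs
  have h1 : ∀ z ∈ U, j1 (E.Gf x f) z = E.p1 x z (f z) (P.d1 f z) := fun z hz => by
    funext m i j
    exact pd_apply (d (hc i j) z hz) (d hf z hz) m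
  have h2 : ∀ k l i j, j2 (E.Gf x f) y k l i j =
      (P.pd k (P.pd l fun z => E.c x z i j) y (f y) + P.pd l (fun z => E.c x z i j) y (P.pd k f y) +
        P.pd k (fun z => E.c x z i j) y (P.pd l f y)) + E.c x y i j (P.pd k (P.pd l f) y) := by
    intro k l i j
    have h3 := d (P.contDiffOn_pd_top hU (hc i j) l) y hy
    have h4 := d (P.contDiffOn_pd_top hU hf l) y hy
    show pderiv k (pderiv l fun z => E.c x z i j (f z)) y = _
    rw [pd_congr_on k hU hy (g := fun z => P.pd l (fun z => E.c x z i j) z (f z) +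
      E.c x z i j (P.pd l f z)) fun z hz => pd_apply (d (hc i j) z hz) (d hf z hz) l,
      pd_add k (h3.clm_apply (d hf y hy)) ((d (hc i j) y hy).clm_apply h4),
      pd_apply h3 (d hf y hy), pd_apply (d (hc i j) y hy) h4]
    ring
  have h5 : trH (E.Gf x f) (h.G x) f y =
      P.Lop (E.cm x y (f y))⁻¹ f y - E.tt h x y (f y) (P.d1 f y) := rfl
  rw [opC, h5, bb, sub_eq_add_neg, add_assoc]
  congr 2
  refine Finset.sum_congr rfl fun i _ => Finset.sum_congr rfl fun j _ => ?_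
  congr 1
  rw [DT_eq hG (riemOn_mono (h.isRiem x) hU hs) hy, h1 y hy]
  simp only [h2, map_add, map_neg, P.Lop, map_sum, map_smul, smul_eq_mul, mul_add,
    Finset.sum_add_distrib, P.d1, Gf]
  ring

theorem sm_bb {X : Type*} [NormedAddCommGroup X] [NormedSpace ℝ X] {S : Set X} {x : M}
    {y : X → En n} {v : X → V} {p : X → Fin n → V} (hy : ContDiffOn ℝ ∞ y S)
    (hv : ContDiffOn ℝ ∞ v S) (hp : ∀ m, ContDiffOn ℝ ∞ (fun q => p q m) S)
    (hm : ∀ q ∈ S, y q ∈ tg n x) (hd : ∀ q ∈ S, (E.cm x (y q) (v q)).PosDef) :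
    ContDiffOn ℝ ∞ (fun q => E.bb h x (y q) (v q) (p q)) S := by
  have hU := isOpen_tg (n := n) x
  have hH := h.isRiem x
  have c0 : ∀ i j, ContDiffOn ℝ ∞ (fun q => E.c x (y q) i j) S := fun i j =>
    (E.sc x i j).comp hy hm
  have c1 : ∀ m i j, ContDiffOn ℝ ∞ (fun q => P.pd m (fun z => E.c x z i j) (y q)) S :=
    fun m i j => (P.contDiffOn_pd_top hU (E.sc x i j) m).comp hy hm
  have c2 : ∀ k l i j, ContDiffOn ℝ ∞ (fun q => P.pd k (P.pd l fun z => E.c x z i j) (y q)) S :=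
    fun k l i j => (P.contDiffOn_pd_top hU (P.contDiffOn_pd_top hU (E.sc x i j) l) k).comp hy hm
  have hA : ∀ i j, ContDiffOn ℝ ∞ (fun q => E.cm x (y q) (v q) i j) S := fun i j =>
    (c0 i j).clm_apply hv
  have hAi := contDiffOn_inv' hA fun q hq => (hd q hq).det_pos.ne'
  have hC : ∀ a b c, ContDiffOn ℝ ∞ (fun q => christoffel (h.G x) (y q) a b c) S := fun a b c =>
    (sm_chr hH a b c).comp hy hm
  have hdC : ∀ a b c d, ContDiffOn ℝ ∞ (fun q => dchr (h.G x) (y q) a b c d) S := fun a b c d =>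
    (sm_pd hU (sm_chr hH b c d) a).comp hy hm
  have hP : ∀ a b c, ContDiffOn ℝ ∞ (fun q => E.p1 x (y q) (v q) (p q) a b c) S := fun a b c =>
    ((c1 a b c).clm_apply hv).add ((c0 b c).clm_apply (hp a))
  have hT : ContDiffOn ℝ ∞ (fun q => E.tt h x (y q) (v q) (p q)) S :=
    ContDiffOn.sum fun k _ => ContDiffOn.sum fun l _ => ContDiffOn.sum fun m _ =>
      ((hAi k l).mul (hC m k l)).smul (hp m)
  refine hT.neg.add (ContDiffOn.sum fun i _ => ContDiffOn.sum fun j _ =>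
    ContDiffOn.smul (f := fun q => _) ?_ ((E.se x i j).comp hy hm))
  refine (ContDiffOn.add ?_ (sm_fDT hA hAi hP hC (sm_fs1 hAi hP) hdC i j)).add
    ((c0 i j).clm_apply hT)
  exact ContDiffOn.sum fun k _ => ContDiffOn.sum fun l _ => (hAi k l).mul
    ((((c2 k l i j).clm_apply hv).add ((c1 l i j).clm_apply (hp k))).add
      ((c1 k i j).clm_apply (hp l)))

variable (E h) in
/-- the operator is quasilinear parabolic -/
def qlop (I : Set ℝ) : P.QLOp n I E.O (fun _ => E.Op h) where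
  a x q := (E.cm x q.2.1 q.2.2)⁻¹
  b x q := E.bb h x q.2.1.1 q.2.1.2 q.2.2
  sa x k l := contDiffOn_inv' (A := fun q : ℝ × En n × V => E.cm x q.2.1 q.2.2)
    (fun i j => ((E.sc x i j).comp (by fun_prop) fun q hq => hq.2.1).clm_apply (by fun_prop))
    (fun q hq => ((posDef_iff hq.2.1 _).2 hq.2.2).det_pos.ne') k l
  sb x := sm_bb (by fun_prop) (by fun_prop) (fun m => by fun_prop) (fun q hq => hq.2.1.1)
    fun q hq => (posDef_iff hq.2.1.1 _).2 hq.2.1.2
  pos x t _ q hq := ((posDef_iff hq.1 _).2 hq.2).inv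
  rep x t _ y hy u W hW hyW hu hO := by
    rw [Op_chart hW hu hO hy hyW]
    exact opC_eq (riem_rd hW hu hO x) inter_subset_left (sm_rd hu x) ⟨hy, hyW⟩

end Emb

end Crest.Agent.N207.B

end
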