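import Crest.Agent.N207.B.Ste1
import Crest.Agent.N207.B.Pb2

/-!
# Row 207, block B STE, part 5 (helper69): short time existence of the Ricci flow from the
quasilinear solver
-/

set_option autoImplicit false
set_option linter.unusedSectionVars false

open scoped ContDiff Manifold Topology Matrix
open Set Filter
open Crest.GeometryTopology.CoordMetric Crest.GeometryTopology.ChartCurvature
open Crest.Agent.R247 Crest.Agent.R202.Tens

noncomputable section

namespace Crest.Agent.N207.B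

universe u

variable {n : ℕ} {M : Type u} [TopologicalSpace M] [ChartedSpace (En n) M]
  [IsManifold 𝓘(ℝ, En n) ∞ M] {V : Type} [NormedAddCommGroup V] [NormedSpace ℝ V]

theorem DT_congr {G G' : MetricField n} {y : En n} (h : G =ᶠ[𝓝 y] G') (H : MetricField n)
    (i j : Fin n) : DT G H y i j = DT G' H y i j := by
  have h1 : dtV G H =ᶠ[𝓝 y] dtV G' H := by
    filter_upwards [h, chr_congr_ev h] with z h2 h3
    simp only [dtV, h2, h3]
  have h2 : ∀ m k, pderiv m (fun z => dtV G H z k) y = pderiv m (fun z => dtV G' H z k) y :=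
    fun m k => pd_congr m (h1.mono fun z hz => by simp only [hz])
  have h3 : ∀ k, pderiv k (fun z => G z i j) y = pderiv k (fun z => G' z i j) y :=
    fun k => pd_congr k (h.mono fun z hz => by simp only [hz])
  simp only [DT, lieG, ricci_congr h, h1.eq_of_nhds, h.eq_of_nhds, h2, h3]

theorem contMDiff_of_rd {u : M → V} (hu : ∀ x, ContDiffOn ℝ ∞ (P.rd n x u) (tg n x)) :
    ContMDiff 𝓘(ℝ, En n) 𝓘(ℝ, V) ∞ u := by
  intro x
  have hx := mem_chart_source (En n) x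
  have h1 : ContMDiffAt 𝓘(ℝ, En n) 𝓘(ℝ, En n) ∞ (chartAt (En n) x) x :=
    contMDiffOn_chart.contMDiffAt ((chartAt (En n) x).open_source.mem_nhds hx)
  have h2 : ContDiffAt ℝ ∞ (P.rd n x u) (chartAt (En n) x x) :=
    (hu x).contDiffAt ((isOpen_tg x).mem_nhds (ctr_mem x))
  refine (h2.contMDiffAt.comp x h1).congr_of_eventuallyEq ?_
  filter_upwards [(chartAt (En n) x).open_source.mem_nhds hx] with p hp
  exact congrArg u ((chartAt (En n) x).left_inv hp).symm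

namespace Emb

variable (E : Emb n M V)

/-- the function of a metric -/
def ofMet (h : Met n M) (p : M) : V := ∑ i, ∑ j, h.G p (ctr n p) i j • E.e p (ctr n p) i j

theorem rd_ofMet (h : Met n M) {x : M} {y : En n} (hy : y ∈ tg n x) :
    P.rd n x (E.ofMet h) y = ∑ i, ∑ j, h.G x y i j • E.e x y i j :=
  (E.tre x _ y (mem_tdom_self hy) _ _ ((h.pull_trans x _).pull y (mem_tdom_self hy))).symm

theorem sm_ofMet (h : Met n M) : ContMDiff 𝓘(ℝ, En n) 𝓘(ℝ, V) ∞ (E.ofMet h) :=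
  contMDiff_of_rd fun x => ContDiffOn.congr (ContDiffOn.sum fun i _ => ContDiffOn.sum fun j _ =>
    ContDiffOn.smul (f := fun y => h.G x y i j) ((h.isRiem x).contDiffOn i j) (E.se x i j))
    fun _ hy => E.rd_ofMet h hy

theorem Gf_ofMet (h : Met n M) {x : M} {y : En n} (hy : y ∈ tg n x) :
    E.Gf x (P.rd n x (E.ofMet h)) y = h.G x y := by
  ext i j
  show E.c x y i j (P.rd n x (E.ofMet h) y) = _
  rw [E.rd_ofMet h hy]
  exact E.dual x y hy _ (metric_symm (h.isRiem x) hy) i j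

theorem ofMet_mem (h : Met n M) (p : M) : (p, E.ofMet h p) ∈ E.O := by
  have h1 := E.Gf_ofMet h (ctr_mem (n := n) p)
  have h2 := (posDef_iff (E := E) (ctr_mem (n := n) p) (P.rd n p (E.ofMet h) (ctr n p))).1
    (by
      have h3 := (h.isRiem p).posDef _ (ctr_mem p)
      rwa [← h1] at h3)
  rwa [P.rd, symm_ctr] at h2

/-- the metric of an admissible function -/
def toMet (u : M → V) (hu : ContMDiff 𝓘(ℝ, En n) 𝓘(ℝ, V) ∞ u) (hO : ∀ p, (p, u p) ∈ E.O) :
    Met n M :=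
  Met.ofCT (fun x => matT (E.Gf x (P.rd n x u)))
    ⟨fun x => SmT.met (riemOn_mono (riem_rd isOpen_univ hu.contMDiffOn (fun p _ => hO p) x)
      (isOpen_tg x) fun _ hy => ⟨hy, mem_univ _⟩),
    fun x₀ x₁ _ hy => AI.matT_pull (pull_rd isOpen_univ hu.contMDiffOn (fun p _ => hO p) x₀ x₁)
      ⟨hy, hy.1, mem_univ _⟩⟩
    fun x => (riem_rd isOpen_univ hu.contMDiffOn (fun p _ => hO p) x).posDef _
      ⟨ctr_mem x, mem_univ _⟩

theorem toMet_G (u : M → V) (hu hO) {x : M} {y : En n} (hy : y ∈ tg n x) :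
    (E.toMet u hu hO).G x y = E.Gf x (P.rd n x u) y := by
  ext i j
  exact Met.ofCT_G _ _ _ x hy i j

end Emb

theorem sm_dtV_fam {g : ℝ → Met n M} {J : Set ℝ} (hg : SmFam g J) (h : Met n M) (x : M) :
    ContDiffOn ℝ ∞ (fun q : ℝ × En n => dtV ((g q.1).G x) (h.G x) q.2) (J ×ˢ tg n x) := by
  have c1 := hg.cfam x
  have c2 := (smFam_const h J).cfam x
  refine contDiffOn_euclidean.2 fun k => ?_
  have h1 : ContDiffOn ℝ ∞ (fun q : ℝ × En n => -∑ p, ∑ r, ((g q.1).G x q.2)⁻¹ p r *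
      (christoffel ((g q.1).G x) q.2 k p r - christoffel (h.G x) q.2 k p r)) (J ×ˢ tg n x) :=
    (ContDiffOn.sum fun p _ => ContDiffOn.sum fun q _ =>
      (c1.st_inv p q).mul ((c1.st_chris k p q).sub (c2.st_chris k p q))).neg
  exact h1

theorem vcompat_dtV (g : ℝ → Met n M) (h : Met n M) (J : Set ℝ) :
    VCompat (fun x (q : ℝ × En n) => dtV ((g q.1).G x) (h.G x) q.2) J := by
  intro x₀ x₁ t _ y hy
  have h1 := dtV_pull ((g t).pull_trans x₀ x₁) (h.pull_trans x₀ x₁) hy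
  simpa only using h1

/-- **short time existence of the Ricci–DeTurck flow and of the Ricci flow** -/
theorem ste_of_emb [CompactSpace M] [T2Space M] (E : Emb n M V) (hQL : P.QLStmt n M V)
    (h : Met n M) : ∃ τ : ℝ, 0 < τ ∧ ∃ (g : ℝ → Met n M) (b : M → ℝ × En n → En n),
      SmFam g (Icc 0 τ) ∧ (∀ x, ContDiffOn ℝ ∞ (b x) (Icc 0 τ ×ˢ tg n x)) ∧
      VCompat b (Icc 0 τ) ∧ RDTOn g b (Ioo 0 τ) ∧ g 0 = h := by
  classical
  obtain ⟨τ, hτ, -, u, hu0, sol⟩ := hQL 0 1 E.O (fun _ => E.Op h) (E.qlop h _) (E.ofMet h) one_pos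
    Emb.isOpen_O (E.sm_ofMet h) (E.ofMet_mem h)
  have hu : ∀ t ∈ Icc 0 τ, ContMDiff 𝓘(ℝ, En n) 𝓘(ℝ, V) ∞ (u t) := fun t ht =>
    contMDiff_of_rd fun x => (sol.sm x).comp (f := fun y : En n => (t, y)) (by fun_prop)
      fun _ hy => ⟨ht, hy⟩
  let g : ℝ → Met n M := fun t =>
    if ht : t ∈ Icc 0 τ then E.toMet (u t) (hu t ht) (sol.mem t ht) else h
  have hG : ∀ t ∈ Icc 0 τ, ∀ x, ∀ y ∈ tg n x, (g t).G x y = E.Gf x (P.rd n x (u t)) y := by
    intro t ht x y hy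
    simp only [g, dif_pos ht]
    exact E.toMet_G _ _ _ hy
  have hg : SmFam g (Icc 0 τ) := by
    intro x i j
    have h1 : ContDiffOn ℝ ∞ (fun q : ℝ × En n => E.c x q.2 i j) (Icc 0 τ ×ˢ tg n x) :=
      (E.sc x i j).comp contDiffOn_snd fun q hq => hq.2
    refine ContDiffOn.congr (h1.clm_apply (sol.sm x)) fun q hq => ?_
    exact congrFun (congrFun (hG q.1 hq.1 x q.2 hq.2) i) j
  refine ⟨τ, hτ, g, fun x q => dtV ((g q.1).G x) (h.G x) q.2, hg, sm_dtV_fam hg h,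
    vcompat_dtV g h _, ?_, ?_⟩
  · intro x t ht y hy i j
    have ht' := Ioo_subset_Icc_self ht
    have hn : Icc 0 τ ∈ 𝓝 t := Icc_mem_nhds ht.1 ht.2
    have h1 := (sol.eqn t ht' ((chartAt (En n) x).symm y)).hasDerivAt hn
    have h2 := (E.c x y i j).hasFDerivAt.comp_hasDerivAt t h1
    have hr := Emb.riem_rd isOpen_univ (hu t ht').contMDiffOn (fun p _ => sol.mem t ht' p) x
    rw [add_zero, Emb.Op_chart isOpen_univ (hu t ht').contMDiffOn (fun p _ => sol.mem t ht' p) hy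
      (mem_univ _), Emb.c_opC hr ⟨hy, mem_univ _⟩ hy] at h2
    have h3 : (g t).G x =ᶠ[𝓝 y] E.Gf x (P.rd n x (u t)) := by
      filter_upwards [(isOpen_tg x).mem_nhds hy] with z hz using hG t ht' x z hz
    rw [← DT_congr h3] at h2
    have h4 : HasDerivAt (fun s => (g s).G x y i j) (DT ((g t).G x) (h.G x) y i j) t := by
      refine HasDerivAt.congr_of_eventuallyEq h2 ?_
      filter_upwards [hn] with s hs
      exact congrFun (congrFun (hG s hs x y hy) i) j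
    exact h4
  · refine Met.ext_G fun x => ?_
    rw [hG 0 ⟨le_rfl, hτ.le⟩ x _ (ctr_mem x), hu0, E.Gf_ofMet h (ctr_mem x)]

/-- **(STE)**, general dimension -/
theorem ste_rf [CompactSpace M] [T2Space M] (hQL : ∀ N : ℕ, P.QLStmt n M (Fin N → Fin N → ℝ))
    (h : Met n M) : ∃ s : ℝ, 0 < s ∧ ∃ m : ℝ → Met n M,
      SmFam m (Icc 0 s) ∧ RFOn m (Ioo 0 s) ∧ m 0 = h := by
  obtain ⟨N, ⟨E⟩⟩ := exists_emb (n := n) (M := M)
  obtain ⟨τ, hτ, g, b, h1, h2, h3, h4, h5⟩ := ste_of_emb E (hQL N) h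
  obtain ⟨m, k1, k2, k3⟩ := exists_rf hτ h1 h2 h3 h4
  exact ⟨τ / 2, by linarith, m, k1, k2, k3.trans h5⟩

/-- **(STE)** -/
theorem ste {M : Type u} [TopologicalSpace M] [ChartedSpace E4 M] [IsManifold 𝓘(ℝ, E4) ∞ M]
    [CompactSpace M] [T2Space M] (hQL : ∀ N : ℕ, P.QLStmt 4 M (Fin N → Fin N → ℝ))
    (m0 : Met 4 M) : ∃ F : Flow M, F.m 0 = m0 := by
  obtain ⟨s, hs, m, h1, h2, h3⟩ := ste_rf hQL m0
  exact ⟨⟨s, hs, m, h1.mono Ico_subset_Icc_self, h2⟩, h3⟩

end Crest.Agent.N207.B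

end
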