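import Crest.Agent.N207.B.Ste2
import Crest.Agent.N207.P.All

/-!
# Row 207, block B STE, part 6 (helper69): short time existence of the Ricci flow
-/

set_option autoImplicit false

open scoped ContDiff Manifold

namespace Crest.Agent.N207.B

universe u

/-- **short time existence of the Ricci flow** on a closed four-manifold -/
theorem ste' {M : Type u} [TopologicalSpace M] [ChartedSpace E4 M] [IsManifold 𝓘(ℝ, E4) ∞ M]
    [CompactSpace M] [T2Space M] (m0 : Met 4 M) : ∃ F : Flow M, F.m 0 = m0 :=
  ste (fun _ => P.qlS 4 M _) m0

end Crest.Agent.N207.B
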